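import Vale.Agent.P283R.Tb.Dic85

/-!
# P283R, block TY: a section splits into terms
-/

open Set

noncomputable section

namespace Vale.Agent.P283R.Tz.S22

open Vale.Agent.P287D Vale.Agent.P283M
open Vale.Agent.P283R.To (mon)
open Pq (Hm Hg tot Tv At lam mu fr Pg hm)
open Tb (dt Mv Ax Cm)

variable {c ρ : ℕ} {K : Type} [Field K] [Algebra ℂ K] {s : Fin c → K} {y : Fin ρ → K}

theorem s_ne (rat : D.Rat (fr s y)) (i : Fin c) : s i ≠ 0 := by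
  have := rat.ind.ne_zero (Fin.castAdd _ i)
  rwa [fr, Fin.append_left] at this

/-- the order of a monomial in `s` -/
theorem ord_mon (rat : D.Rat (fr s y)) (P : Pl K) (u : Fin c → ℤ) :
    P.ord (mon s u) = dt s P u :=
  To.ord_mon P (s_ne rat) u

theorem dt_sum (P : Pl K) {ι : Type} (t : Finset ι) (z : ι → ℤ) (a : ι → Fin c → ℤ) :
    dt s P (∑ p ∈ t, z p • a p) = ∑ p ∈ t, z p * dt s P (a p) := by
  simp only [dt, Finset.sum_apply, Pi.smul_apply, smul_eq_mul, Finset.sum_mul, Finset.mul_sum,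
    mul_assoc]
  exact Finset.sum_comm

/-- the order at a prime over a page -/
theorem ord_ax (rat : D.Rat (fr s y)) {P : Pl K} {p : Pg c} (h : At s P (some p)) (n : Pg c →₀ ℤ)
    (v : Fin ρ → ℤ) : P.ord (hm s y n v) = ∑ j, v j * P.ord (y j) + mu s P (some p) * n p :=
  (Pq.fac c ρ K s y rat).2.2.2.2.2.1 P _ n v h

theorem dt_ax {P : Pl K} {p : Pg c} (h : Ax s P p) (u : Fin c → ℤ) : dt s P u = 0 := by
  simp [dt, h.2]

/-- **one component** -/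
theorem cmp (rat : D.Rat (fr s y)) {T : Set (Pl K)}
    (inv : ∀ P ∈ T, ¬ Tv s y P → ∀ G, Hg s y G → ∀ u, G u ≠ 0 → P.ord (tot G) ≤ P.ord (G u))
    (lau : ∀ φ : K, φ ≠ 0 → (∀ P ∈ T, Tv s y P → 0 ≤ P.ord φ) → ∃ G, Hg s y G ∧ φ = tot G)
    {φ : K} (φ0 : φ ≠ 0) (hφ : ∀ P ∈ T, Tv s y P → 0 ≤ P.ord φ) (Q : Pl K) :
    ∃ (n : Pg c →₀ ℤ) (v : Fin ρ → ℤ), (∀ P ∈ T, ¬ Tv s y P → P.ord φ ≤ P.ord (hm s y n v)) ∧
      Q.ord (hm s y n v) ≤ Q.ord φ := by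
  obtain ⟨G, hG, rfl⟩ := lau φ φ0 hφ
  obtain ⟨v, hv, k⟩ := (Pq.sums c ρ K s y rat).2.1 G Q φ0
  obtain ⟨b, n, b0, e⟩ := (Pq.fac c ρ K s y rat).1 v _ (hG v) hv
  have k' : ∀ P : Pl K, P.ord (hm s y n v) = P.ord (G v) := fun P => by
    rw [e, Pl.ord_smul P b0]
  exact ⟨n, v, fun P a t => k' P ▸ inv P a t G hG v hv, k' Q ▸ k⟩

/-- **other exponents**: smaller ones, or any at the pages where one monomial computes the order -/
theorem low (rat : D.Rat (fr s y)) (n N : Pg c →₀ ℤ) (v : Fin ρ → ℤ) {S : Set (Pl K)}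
    (hS : ∀ P ∈ S, Mv s P) (Q : Pl K)
    (h : ∀ p, N p ≤ n p ∨ ∃ a : Fin c →₀ ℕ, Cm s Q p a ∧ ∀ P ∈ S, Cm s P p a) :
    ∃ u : Fin c → ℤ, (∀ P ∈ S, P.ord (hm s y n v) ≤ P.ord (hm s y N v) + dt s P u) ∧
      Q.ord (hm s y N v) + dt s Q u ≤ Q.ord (hm s y n v) := by
  obtain ⟨-, -, f3, -, -, -, -, f8, -⟩ := Pq.fac c ρ K s y rat
  have f2 := (Pq.fac c ρ K s y rat).2.1
  have ch : ∀ p, ∃ a : Fin c → ℤ,
      (∀ P ∈ S, (n p - N p) * P.ord (lam s p) ≤ (n p - N p) * dt s P a) ∧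
        (n p - N p) * dt s Q a ≤ (n p - N p) * Q.ord (lam s p) := fun p => by
    obtain k | ⟨a, k, k'⟩ := h p
    · obtain ⟨a, ha, m⟩ := (Tb.dic85 c ρ K s y rat).1 Q p.l ((Pq.pol c).1 p).1.ne_zero
      exact ⟨fun i => a i, fun P x => mul_le_mul_of_nonneg_left (hS P x _ a ha) (sub_nonneg.2 k),
        mul_le_mul_of_nonneg_left m (sub_nonneg.2 k)⟩
    · exact ⟨fun i => a i, fun P x => (congrArg _ (k' P x)).le, (congrArg _ k).ge⟩
  choose a a1 a2 using ch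
  have e : ∀ P : Pl K, P.ord (hm s y n v) =
      P.ord (hm s y N v) + ∑ p ∈ (n - N).support, (n p - N p) * P.ord (lam s p) := fun P => by
    have : hm s y n v = hm s y N v * hm s y (n - N) 0 := by
      rw [← f3, add_zero, add_sub_cancel]
    rw [this, P.ord_mul (f2 _ _).1 (f2 _ _).1, f8 P (n - N)]
    simp [Finsupp.sum]
  refine ⟨∑ p ∈ (n - N).support, (n p - N p) • a p, fun P x => ?_, ?_⟩
  · rw [e, dt_sum]
    exact add_le_add le_rfl (Finset.sum_le_sum fun p _ => a1 p P x)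
  · rw [e, dt_sum]
    exact add_le_add le_rfl (Finset.sum_le_sum fun p _ => a2 p)

/-- **the splitting**: the exponents `N n v` are chosen from those of a component -/
theorem spl (rat : D.Rat (fr s y)) {T : Set (Pl K)}
    (inv : ∀ P ∈ T, ¬ Tv s y P → ∀ G, Hg s y G → ∀ u, G u ≠ 0 → P.ord (tot G) ≤ P.ord (G u))
    (lau : ∀ φ : K, φ ≠ 0 → (∀ P ∈ T, Tv s y P → 0 ≤ P.ord φ) → ∃ G, Hg s y G ∧ φ = tot G)
    {φ : K} (φ0 : φ ≠ 0) (k : Pl K → ℤ) (hk : ∀ P ∈ T, k P ≤ P.ord φ)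
    (k0 : ∀ P ∈ T, Tv s y P → 0 ≤ k P) (Q : Pl K)
    (N : (Pg c →₀ ℤ) → (Fin ρ → ℤ) → Pg c →₀ ℤ)
    (hN : ∀ n v p, (∀ P ∈ T, Ax s P p → k P ≤ ∑ j, v j * P.ord (y j) + mu s P (some p) * n p) →
      N n v p ≤ n p ∨ ∃ a : Fin c →₀ ℕ, Cm s Q p a ∧ ∀ P ∈ T, Mv s P → Cm s P p a) :
    ∃ (n : Pg c →₀ ℤ) (v : Fin ρ → ℤ) (u : Fin c → ℤ),
      (∀ P ∈ T, ∀ p, At s P (some p) → k P ≤ ∑ j, v j * P.ord (y j) + mu s P (some p) * n p) ∧
      (∀ P ∈ T, Mv s P → ¬ Tv s y P → k P ≤ P.ord (hm s y (N n v) v) + dt s P u) ∧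
      Q.ord (hm s y (N n v) v) + dt s Q u ≤ Q.ord φ := by
  obtain ⟨n, v, a, b⟩ := cmp rat inv lau φ0 (fun P x t => (k0 P x t).trans (hk P x)) Q
  have pg : ∀ P ∈ T, ∀ p, At s P (some p) →
      k P ≤ ∑ j, v j * P.ord (y j) + mu s P (some p) * n p := fun P x p t => by
    rw [← ord_ax rat t]
    exact (hk P x).trans (a P x ((Pq.fac c ρ K s y rat).2.2.2.2.1 P _ t).1)
  obtain ⟨u, u1, u2⟩ := low rat n (N n v) v (S := {P | P ∈ T ∧ Mv s P}) (fun _ x => x.2) Q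
    fun p => (hN n v p fun P x t => pg P x p t.1).imp_right fun ⟨a, z, z'⟩ =>
      ⟨a, z, fun P x => z' P x.1 x.2⟩
  exact ⟨n, v, u, pg, fun P x m t => ((hk P x).trans (a P x t)).trans (u1 P ⟨x, m⟩), u2.trans b⟩

end Vale.Agent.P283R.Tz.S22
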