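import Vale.Agent.P283R.Tz.St
import Vale.Agent.P283R.Tz.Spl22

/-!
# P283R, block TY: a section gives a monomial section
-/

open Set

noncomputable section

namespace Vale.Agent.P283R.Tz

open Vale.Agent.P287D Vale.Agent.P283M Vale.Agent.P297Z
open Vale.Agent.P283R.To (mon)
open Pq (Hm Hg tot Tv At lam mu fr Pg hm cz)
open Tb (dt Mv Ax Cm)
open Tb.C85 (Nc)

namespace D22

variable {c ρ : ℕ} {K : Type} [Field K] [Algebra ℂ K] {s : Fin c → K} {y : Fin ρ → K}

theorem lam_ne (rat : D.Rat (fr s y)) (p : Pg c) : lam s p ≠ 0 :=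
  Pq.F60.lam_ne (Pq.F60.ind_s rat.ind) p

theorem y_ne (rat : D.Rat (fr s y)) (i : Fin ρ) : y i ≠ 0 := by
  have := rat.ind.ne_zero (Fin.natAdd _ i)
  rwa [fr, Fin.append_right] at this

/-- a coordinate page is a monomial -/
theorem co {p : Pg c} (n : ¬ Nc p) : ∃ a, ∀ P : Pl K, Cm s P p a := by
  classical
  obtain ⟨i, hi⟩ : ∃ i, p.l ∣ MvPolynomial.X i := by simpa [Nc] using n
  obtain ⟨u, hu⟩ := ((Pq.pol c).1 p).1.irreducible.associated_of_dvd
    (MvPolynomial.X_prime (R := ℂ) (i := i)).irreducible hi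
  obtain ⟨b, b0, e⟩ := MvPolynomial.isUnit_iff_eq_C_of_isReduced.1 u.isUnit
  have k : s i = b • lam s p := by
    rw [← MvPolynomial.aeval_X (R := ℂ) s i, ← hu, e, map_mul, MvPolynomial.aeval_C, mul_comm,
      Algebra.smul_def]
    rfl
  refine ⟨Finsupp.single i 1, fun P => ?_⟩
  rw [Cm, dt, Finset.sum_eq_single i (fun j _ z => by simp [Finsupp.single_eq_of_ne z])
    (by simp), k, Pl.ord_smul P b0.ne_zero]
  simp

theorem dt_add (P : Pl K) (u u' : Fin c → ℤ) : dt s P (u + u') = dt s P u + dt s P u' := by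
  simp only [dt, Pi.add_apply, add_mul, Finset.sum_add_distrib]

open Classical in
/-- the monomial section with the exponents of a component -/
theorem omo (rat : D.Rat (fr s y)) (a : Pg c → Fin c →₀ ℕ) (N : Finset (Pg c)) (v : Fin ρ → ℤ)
    (u : Fin c → ℤ) (n : Pg c →₀ ℤ) :
    mo s y a N v (u + ∑ p ∈ N, n p • fun i => (a p i : ℤ)) n ≠ 0 ∧ ∀ P : Pl K,
      P.ord (mo s y a N v (u + ∑ p ∈ N, n p • fun i => (a p i : ℤ)) n) =
        P.ord (hm s y (n.filter (· ∈ N)) v) + dt s P u := by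
  have z := S22.s_ne rat
  have z1 : ∀ p, lam s p / mon s (fun i => (a p i : ℤ)) ≠ 0 := fun p =>
    div_ne_zero (lam_ne rat p) (To.mon_ne z _)
  have z2 : ∏ p ∈ N, (lam s p / mon s fun i => (a p i : ℤ)) ^ n p ≠ 0 :=
    Finset.prod_ne_zero_iff.2 fun p _ => zpow_ne_zero _ (z1 p)
  have z3 := fun u => mul_ne_zero (To.mon_ne (y_ne rat) v) (To.mon_ne z u)
  refine ⟨mul_ne_zero (z3 _) z2, fun P => ?_⟩
  rw [mo, P.ord_mul (z3 _) z2, P.ord_mul (To.mon_ne (y_ne rat) v) (To.mon_ne z _),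
    To.ord_mon P (y_ne rat), S22.ord_mon rat, P.ord_prod _ fun p _ => zpow_ne_zero _ (z1 p),
    (Pq.fac c ρ K s y rat).2.2.2.2.2.2.2.1, dt_add, S22.dt_sum,
    Finsupp.sum_of_support_subset _ (s := N) (fun p h => by
      rw [Finsupp.support_filter] at h; exact (Finset.mem_filter.1 h).2) _ (by simp)]
  have : ∀ p ∈ N, P.ord ((lam s p / mon s fun i => (a p i : ℤ)) ^ n p) =
      (n.filter (· ∈ N)) p * P.ord (lam s p) - n p * dt s P fun i => (a p i : ℤ) := fun p h => by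
    rw [Pl.ord_zpow, div_eq_mul_inv, P.ord_mul (lam_ne rat p) (inv_ne_zero (To.mon_ne z _)),
      P.ord_inv, S22.ord_mon rat, Finsupp.filter_apply_pos _ _ h]
    ring
  rw [Finset.sum_congr rfl this, Finset.sum_sub_distrib]
  ring

end D22

theorem dec22 : DEC := by
  classical
  intro K _ _ c ρ s y T d q ε G κ Q ξ I J a N m X st se np hX ⟨φ, φ0, h1, h2⟩
  have fm := st.pk.fm
  have rat := fm.rat
  obtain ⟨-, f2, -, -, f5, -, -, -, -, -⟩ := Pq.fac c ρ K s y rat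
  have tv : ∀ P ∈ T, Tv s y P → P ∈ T \ X := fun P x t => ⟨x, fun z => (hX P z).2.1 t⟩
  obtain ⟨n, v, k1, k2⟩ := S22.cmp rat (T := T \ X) (fun P x => fm.inv P x.1)
    (fun ψ z k => fm.lau ψ z fun P x t => k P (tv P x t) t) φ0
    (fun P x t => by simpa [(st.pk.reg P x.1 t).2] using h1 P x) Q
  have od : ∀ P ∈ T, ∀ p ∉ I, At s P (some p) →
      mu s P (some p) = 1 ∧ κ P = 0 ∧ ∑ j, v j * P.ord (y j) = 0 := fun P x p z t =>
    ⟨(st.od.od.od P x p z t).1, (st.od.od.od P x p z t).2.2, Finset.sum_eq_zero fun j _ => by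
      rw [st.od.y0 P x p z t j (D22.y_ne rat j), mul_zero]⟩
  obtain ⟨u, u1, u2⟩ := S22.low rat n (n.filter (· ∈ N)) v (S := {P | Ry s y T P})
    (fun P x => x.2.2) Q fun p => by
      by_cases z : p ∈ N
      · exact .inl (Finsupp.filter_apply_pos _ _ z).le
      rw [Finsupp.filter_apply_neg _ _ z]
      by_cases nc : Nc p
      swap
      · obtain ⟨b, hb⟩ := D22.co (s := s) nc
        exact .inr ⟨b, hb Q, fun P _ => hb P⟩
      by_cases e : ∃ P ∈ T, At s P (some p)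
      · obtain ⟨P, x, t⟩ := e
        obtain ⟨o1, o2, o3⟩ := od P x p (fun i => z ((np p).2 ⟨i, nc, P, x, t⟩)) t
        have x' : P ∈ T \ X := ⟨x, fun w => Tb.C85.not_mn rat t nc (hX P w).2.2⟩
        have := (h1 P x').trans (k1 P x' (f5 P _ t).1)
        rw [S22.ord_ax rat t, o1, o2, o3] at this
        exact .inl (by simpa using this)
      · obtain ⟨e1, e2⟩ := se.em p nc e
        exact .inr ⟨a p, (sub_eq_zero.1 e1).symm, fun P x => (sub_eq_zero.1 (e2 P x)).symm⟩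
  obtain ⟨m0, m1⟩ := D22.omo rat a N v u n
  refine ⟨v, u + ∑ p ∈ N, n p • fun i => (a p i : ℤ), n, fun P x => ?_, ?_⟩
  · rw [m1]
    by_cases t : Tv s y P
    · rw [(st.pk.reg P x.1 t).2, t v _ (f2 _ _).2 (f2 _ _).1, ← S22.ord_mon rat,
        t 0 _ ⟨mon s u, prod_mem fun i _ => zpow_mem
          (IntermediateField.subset_adjoin _ _ (mem_range_self i)) _,
          by rw [Pq.F60.mon_zero, mul_one]⟩ (To.mon_ne (S22.s_ne rat) u)]
      simp
    have k := (h1 P x).trans (k1 P x t)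
    by_cases mv : Mv s P
    · exact k.trans (u1 P ⟨x.1, t, mv⟩)
    obtain ⟨p, hp⟩ : ∃ p, Ax s P p := (fm.pg P x.1).resolve_left mv
    rw [S22.dt_ax hp, add_zero, S22.ord_ax rat hp.1]
    by_cases z : p ∈ N
    · rwa [Finsupp.filter_apply_pos _ _ z, ← S22.ord_ax rat hp.1]
    obtain ⟨-, o2, o3⟩ := od P x.1 p (fun i => z ((np p).2
      ⟨i, by_contra fun w => mv (Tb.C85.mn_co rat hp.1 w), P, x.1, hp.1⟩)) hp.1
    rw [Finsupp.filter_apply_neg _ _ z, o2, o3]
    simp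
  · have g0 := pow_ne_zero m st.pk.g0
    rw [Q.ord_mul g0 φ0] at h2
    rw [Q.ord_mul g0 m0, m1]
    linarith

end Vale.Agent.P283R.Tz
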