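import Vale.Agent.P283R.Tz.St
import Vale.Agent.P283R.He.Dbl62

/-!
# P283R, block TY: Helly over the monomial primes
-/

open Set

noncomputable section

namespace Vale.Agent.P283R.Tz

open Vale.Agent.P287D Vale.Agent.P283M Cx Cy
open Vale.Agent.P283R.To (mon)
open Pq (Tv At cz lam mu fr tot Pg ForR)
open Wc (Kt Rep Sec ForA)
open Tb (dt Mv)
open Tb.C85 (Nc)

/-- **FIR** -/
theorem fir62 : FIR := fun dec orm C d q ε q0 ε0 => by
  classical
  obtain ⟨m, m2, hm⟩ := Tl.one (2 ^ (d + C) + d) d q ε q0 ε0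
  refine ⟨2 * m, by omega, fun K _ _ c ρ s y T G κ Q ξ ξ' I D J a st vx cJ se => ?_⟩
  have fm := st.pk.fm
  have dim := st.pk.dim
  have g0 := st.pk.g0
  have y0 := Pq.F60.y_ne fm.rat.ind
  have nm : ∀ P p, At s P (some p) → Nc p → ¬ Mv s P := fun P p h n => Tb.C85.not_mn fm.rat h n
  have fin : {P | Ry s y T P}.Finite := (Tl.car52 K c ρ s y T I fm).1.subset fun P h =>
    ⟨h.1, h.2.1, fun p hp x => nm P p x (fun i e => hp (st.od.od.co i p e)) h.2.2⟩
  have fp : ∀ p, {P | P ∈ T ∧ At s P (some p)}.Finite := fun p =>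
    (fm.fin (lam s p)).subset fun P h => ⟨h.1, h.2.1.ne'⟩
  let N := I.filter fun p => Nc p ∧ ∃ P ∈ T, At s P (some p)
  have hN : Np s T I N := fun p => Finset.mem_filter
  have nc : ∀ p ∈ N, Nc p := fun p hp => ((hN p).1 hp).2.1
  have hv : ∀ p, Hv s T p → p ∈ N := fun p ⟨n, P, h1, h2, h3⟩ => (hN p).2 ⟨by
    by_contra x
    have := (st.od.od.od P h1 p x h2).1
    omega, n, P, h1, h2⟩
  let F : Pg c → Finset (Pl K × Pg c) := fun p => (fp p).toFinset ×ˢ {p}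
  have hF : ∀ p j, j ∈ F p ↔ (j.1 ∈ T ∧ At s j.1 (some p)) ∧ j.2 = p := fun p j => by
    simp only [F, Finset.mem_product, Finite.mem_toFinset, Finset.mem_singleton]
    rfl
  let Z : Pl K → Fin ρ ⊕ Fin c → ℤ := fun P =>
    Sum.elim (fun j => P.ord (y j)) fun i => P.ord (s i)
  have o1 : ∀ x n P, P.ord (mo s y a N (x ∘ Sum.inl) (x ∘ Sum.inr) n) =
      Z P ⬝ᵥ x - ∑ p ∈ N, wd s p (a p) P * n p := fun x n P => by
    rw [(orm c ρ K s y fm.rat a N _ _ n nc).2.1 P]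
    simp only [Z, dotProduct, Fintype.sum_sum_type, Sum.elim_inl, Sum.elim_inr, dt,
      Function.comp_apply, mul_comm]
  have o2 : ∀ x n, ∀ p ∈ N, ∀ P, At s P (some p) →
      P.ord (mo s y a N (x ∘ Sum.inl) (x ∘ Sum.inr) n) = mu s P (some p) * n p +
        (Sum.elim (fun j => P.ord (y j)) 0 : Fin ρ ⊕ Fin c → ℤ) ⬝ᵥ x := fun x n p hp P h => by
    rw [(orm c ρ K s y fm.rat a N _ _ n nc).2.2.1 P p hp h]
    simp only [dotProduct, Fintype.sum_sum_type, Sum.elim_inl, Sum.elim_inr, Function.comp_apply,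
      Pi.zero_apply, zero_mul, Finset.sum_const_zero, add_zero, mul_comm]
  have ne : ∀ v u n, mo s y a N v u n ≠ 0 := fun v u n => (orm c ρ K s y fm.rat a N v u n nc).1
  obtain ⟨x, n, h1, h2, h3⟩ := He.C62.dbl fin.toFinset N J (N.filter fun p => Hv s T p ∧ p ∉ J) F
    (fun j => mu s j.1 (some j.2)) (fun j => m * κ j.1)
    (fun j => (Sum.elim (fun i => j.1.ord (y i)) 0 : Fin ρ ⊕ Fin c → ℤ)) Z
    (fun P p => wd s p (a p) P) (fun P => m * κ P) (Z Q) (fun p => -wd s p (a p) Q)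
    (q * m * (cz s y Q + 1) - Q.ord (tot G ^ m)) (fun p hp => hv p (se.hJ p hp))
    (fun p hp => ⟨(Finset.mem_filter.1 hp).1, (Finset.mem_filter.1 hp).2.2⟩)
    (fun p hp => let ⟨P, h⟩ := ((hN p).1 hp).2.2; ⟨(P, p), (hF p _).2 ⟨h, rfl⟩⟩)
    (fun p _ j hj => by
      obtain ⟨h, e⟩ := (hF p j).1 hj
      exact e ▸ h.2.1)
    (fun P hP p _ _ => sub_nonneg.2 ((fin.mem_toFinset.1 hP).2.2 p.l (a p) (se.su p)))
    (fun p hp hJ => neg_nonneg.2 (se.c0 p (nc p hp) hJ))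
    (fun p hp hJ hH j hj => by
      obtain ⟨h, e⟩ := (hF p j).1 hj
      by_contra z
      exact hH (Finset.mem_filter.2 ⟨hp, ⟨nc p hp, j.1, h.1, h.2, by rw [e] at z; omega⟩, hJ⟩))
    (fun p hp => neg_eq_zero.2 (se.hc p (Finset.mem_filter.1 hp).2.1 (Finset.mem_filter.1 hp).2.2))
    (fun P hP => se.hw P (fin.mem_toFinset.1 hP) _ fun p hp => (Finset.mem_filter.1 hp).2)
    fun t ht hc => by
      let X := {P | Ry s y T P} \ ↑(t ∪ D)
      have pk := Tl.drp47 K c ρ s y T d q ε _ κ X st.pk (fin.subset sdiff_subset) fun P k => k.1.2.1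
      have rep : Rep s y (T \ X) Q ξ' := ⟨vx.rep.nn, fun P k => ⟨⟨(vx.rep.sup P k).1, fun x =>
        x.2 (by
          rw [Finset.coe_union]
          exact Or.inr (vx.ray P k x.1.2.2))⟩, (vx.rep.sup P k).2⟩, vx.rep.eq⟩
      have aq : Tl.Aq s (T \ X) Q ⊆ ↑(t ∪ D) := fun P ⟨k, mv, ⟨i, hi⟩, _⟩ => by
        by_contra x
        refine k.2 ⟨⟨k.1, fun tv => hi (tv 0 _ ⟨s i, IntermediateField.subset_adjoin _ _ ⟨i, rfl⟩, by
          rw [Pq.F60.mon_zero, mul_one]⟩ ((Pq.F60.ind_s fm.rat.ind).ne_zero i)), mv⟩, x⟩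
      have af := (Finset.finite_toSet _).subset aq
      have cd : (t ∪ D).card ≤ 2 ^ (d + C) + d := (Finset.card_union_le t D).trans (add_le_add
        (hc.trans (Nat.pow_le_pow_right (by norm_num) (by
          simp only [Fintype.card_sum, Fintype.card_fin]
          omega))) (vx.card.trans_eq dim))
      obtain ⟨v, u, n, k1, k2⟩ := dec K c ρ s y T d q ε G κ Q ξ I J a N m X st se hN (fun P k => k.1)
        (hm K c ρ s y _ _ κ Q pk (fun φ h0 h => (Tl.reg21 K c ρ s y _ Q ξ' φ pk.fm rep h0 h).1)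
          ⟨af.toFinset, (Finset.card_le_card fun P h => aq (af.mem_toFinset.1 h)).trans cd,
            fun P h => af.mem_toFinset.1 h, fun _ h R k => h R (af.mem_toFinset.2 k)⟩)
      refine ⟨Sum.elim v u, n, fun p hp j hj => ?_, fun P hP => ?_, ?_⟩
      · obtain ⟨h, e⟩ := (hF p j).1 hj
        have := k1 j.1 ⟨h.1, fun x => nm _ p h.2 (nc p hp) x.1.2.2⟩
        rw [e]
        exact this.trans_eq (o2 (Sum.elim v u) n p hp _ h.2)
      · exact (k1 P ⟨(fin.mem_toFinset.1 (ht hP)).1, fun x => x.2 (by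
          rw [Finset.coe_union]
          exact Or.inl hP)⟩).trans_eq (o1 (Sum.elim v u) n P)
      · have := o1 (Sum.elim v u) n Q
        rw [Q.ord_mul (pow_ne_zero _ g0) (ne _ _ _)] at k2
        simp only [neg_mul, Finset.sum_neg_distrib]
        change Q.ord (mo s y a N v u n) = _ at this
        linarith
  refine ⟨_, ne (x ∘ Sum.inl) (x ∘ Sum.inr) n, fun P hP => ?_, ?_⟩
  · push_cast
    rw [mul_assoc]
    by_cases tv : Tv s y P
    · rw [(orm c ρ K s y fm.rat a N _ _ n nc).2.2.2.2 P tv, (st.pk.reg P hP tv).2]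
      simp
    by_cases mv : Mv s P
    · exact (h2 P (fin.mem_toFinset.2 ⟨hP, tv, mv⟩)).trans_eq (o1 x n P).symm
    obtain ⟨p, h, -⟩ := (fm.pg P hP).resolve_left mv
    have n' : Nc p := by_contra fun z => mv (Tb.C85.mn_co fm.rat h z)
    by_cases hp : p ∈ N
    · exact (h1 p hp (P, p) ((hF p _).2 ⟨⟨hP, h⟩, rfl⟩)).trans_eq (o2 x n p hp P h).symm
    · have pI : p ∉ I := fun z => hp ((hN p).2 ⟨z, n', P, hP, h⟩)
      rw [(orm c ρ K s y fm.rat a N _ _ n nc).2.2.2.1 P p n' hp h, (st.od.od.od P hP p pI h).2.2,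
        Finset.sum_eq_zero fun j _ => by rw [st.od.y0 P hP p pI h j (y0 j), mul_zero]]
      simp
  · rw [mul_comm 2 m, pow_mul, sq, Q.ord_mul (mul_ne_zero (pow_ne_zero _ g0) (pow_ne_zero _ g0))
      (ne _ _ _), Q.ord_mul (pow_ne_zero _ g0) (pow_ne_zero _ g0), o1]
    simp only [neg_mul, Finset.sum_neg_distrib] at h3
    push_cast
    linarith

end Vale.Agent.P283R.Tz
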