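import Vale.Agent.P283R.Tz.St

/-!
# P283R, block TY: few heavy pages have a positive mass
-/

open Set

noncomputable section

namespace Vale.Agent.P283R.Tz

open Vale.Agent.P287D Vale.Agent.P283M Cx Cy
open Tb (Mv)

/-- **HVY** -/
theorem hvy67 : HVY := fun d q => ⟨q * (d + d) * (d + 2),
  fun K _ _ c ρ s y T ε G κ Q ξ ξ' I D st vx => by
  classical
  have pk := st.pk
  have rp := vx.rep
  obtain ⟨u, -, J, h1, h2⟩ := Tb.C85.hel (Q := Q) (ζ := ξ')
    (Is := D.filter fun P => Mv s P ∧ ξ' P ≠ 0) Tb.gp0 (Tl.f1_85 pk.fm) st.e0.le st.q0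
    st.od.hg pk.g0 pk.hw pk.fin
    (fun E a => by
      have := pk.eff E a
      omega) ⟨rp.nn, rp.sup, fun u x hx x0 => rp.eq x ⟨x0, u, hx⟩,
      fun P a => (Finset.mem_filter.1 a).2,
      fun a h E z m => h E (Finset.mem_filter.2 ⟨vx.ray E z m, m, z⟩)⟩
  have dm := pk.dim
  have cD := vx.card
  refine ⟨J, h1.trans (Nat.mul_le_mul (Nat.mul_le_mul_left _ (Nat.add_le_add (by omega)
    ((Finset.card_filter_le _ _).trans (by omega)))) (by omega)),
    fun p ⟨n, E, a, b, h3⟩ j P k => by_contra fun z => ?_⟩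
  have := (h2 E a p n b ⟨P, z, k⟩ j).1
  omega⟩

end Vale.Agent.P283R.Tz
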