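import Vale.Agent.P283R.Tl.A42
import Vale.Agent.P283R.Tb.Hg85

/-!
# P283R, block TY: Caratheodory inside the support
-/

open Set

noncomputable section

namespace Vale.Agent.P283R.Tz.C25

open Vale.Agent.P287D Vale.Agent.P283M Vale.Agent.P297Z
open Pq (Hm At lam mu fr Pg)
open Wc (Ho Kt Rep)
open Tb (dt Mv Ax Cm)

open Classical in
/-- Caratheodory with rescaled masses -/
theorem abs {ι π β : Type} [Fintype β] (S I : Finset ι) (ξ : ι → ℝ) (h0 : 0 ≤ ξ)
    (o : ι → β → ℝ) (n : ι → π → ℝ) (r : ι → π) (N : π → ℝ)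
    (hr : ∀ P ∉ S, ξ P ≠ 0 → 0 < n P (r P) ∧ ∀ p, p ≠ r P → n P p = 0)
    (fo : ∀ j, (Function.support fun P => ξ P * o P j).Finite)
    (fn : ∀ p, (Function.support fun P => ξ P * n P p).Finite)
    (hN : ∀ p, ∑ᶠ P, ξ P * n P p = N p)
    (di : ∀ ζ : ι → ℝ, 0 ≤ ζ → (∀ P ∈ I, ζ P = ξ P) → (∀ P, ζ P ≠ 0 → ξ P ≠ 0) →
      (∀ j, (∀ P ∉ S, ξ P ≠ 0 → o P j = 0) → ∑ P ∈ S, ζ P * o P j = ∑ P ∈ S, ξ P * o P j) → ∀ p,
      ∑ P ∈ S, ζ P * n P p ≤ N p ∧ (∑ P ∈ S, ξ P * n P p = N p → ∑ P ∈ S, ζ P * n P p = N p)) :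
    ∃ (ξ' : ι → ℝ) (t : Finset ι), 0 ≤ ξ' ∧ t ⊆ S ∧ t.card ≤ I.card + Fintype.card β ∧
      (∀ P ∈ S, ξ' P ≠ 0 → P ∈ t) ∧ (∀ P, ξ' P ≠ 0 → ξ P ≠ 0) ∧
      (∀ j, ∑ᶠ P, ξ' P * o P j = ∑ᶠ P, ξ P * o P j) ∧ ∀ p, ∑ᶠ P, ξ' P * n P p = N p := by
  let M : π → ℝ := fun p => N p - ∑ P ∈ S, ξ P * n P p
  let cR : ι → (ι → ℝ) → ℝ := fun R a =>
    ∑ᶠ P, if P ∈ S then 0 else n R (r P) / M (r P) * (ξ P * a P)
  let A := (S \ I).filter fun P => ξ P ≠ 0
  obtain ⟨z, z0, z1, z2⟩ := Vale.Agent.P283R.Wd.Z66.car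
    (fun (R : A) j => o R j - cR R fun P => o P j) _ (fun R => ξ R) le_rfl fun R => h0 R
  let ζ : ι → ℝ := fun P => if k : P ∈ A then z ⟨P, k⟩ else ξ P
  have e1 : ∀ P : A, ζ P = z P := fun P => dif_pos P.2
  have e2 : ∀ P ∉ A, ζ P = ξ P := fun P k => dif_neg k
  have AS : A ⊆ S := fun P k => (Finset.mem_sdiff.1 (Finset.mem_filter.1 k).1).1
  have ζ0 : 0 ≤ ζ := fun P => by
    by_cases k : P ∈ A
    · exact (e1 ⟨P, k⟩).symm ▸ z0 _
    · exact (e2 P k).symm ▸ h0 P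
  have ζ1 : ∀ P, ζ P ≠ 0 → ξ P ≠ 0 := fun P h => by
    by_cases k : P ∈ A
    · exact (Finset.mem_filter.1 k).2
    · exact e2 P k ▸ h
  have z3 : ∀ j, ∑ R ∈ S, (ζ R - ξ R) * (o R j - cR R fun P => o P j) = 0 := fun j => by
    have := congrFun z1 j
    simp only [Finset.sum_apply, Pi.smul_apply, smul_eq_mul] at this
    rw [← Finset.sum_subset AS fun P _ k => by rw [e2 P k, sub_self, zero_mul],
      ← Finset.sum_coe_sort]
    simp only [e1, sub_mul, Finset.sum_sub_distrib, this, sub_self]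
  have dd := di ζ ζ0 (fun P k => e2 P fun m => (Finset.mem_sdiff.1 (Finset.mem_filter.1 m).1).2 k)
    ζ1 fun j h => by
      have := z3 j
      have c : ∀ R, (cR R fun P => o P j) = 0 := fun R => finsum_eq_zero_of_forall_eq_zero fun P => by
        split_ifs with k
        · rfl
        · by_cases m : ξ P = 0
          · simp [m]
          · simp [h P k m]
      simp only [c, sub_zero, sub_mul, Finset.sum_sub_distrib] at this
      exact sub_eq_zero.1 this
  -- the mass of a page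
  have sp : ∀ a : ι → ℝ, (Function.support a).Finite →
      ∑ᶠ P, a P = ∑ P ∈ S, a P + ∑ᶠ P, if P ∈ S then 0 else a P := fun a f => by
    have e : ∑ P ∈ S, a P = ∑ᶠ P, if P ∈ S then a P else 0 := by
      rw [finsum_eq_sum_of_support_subset (s := S) (fun P => if P ∈ S then a P else 0)
        fun P k => by_contra fun m => k (if_neg fun c => m (Finset.mem_coe.2 c))]
      exact Finset.sum_congr rfl fun P k => (if_pos k).symm
    rw [e, ← finsum_add_distrib (f.subset fun P k m => k (by simp [m]))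
      (f.subset fun P k m => k (by simp [m]))]
    exact finsum_congr fun P => by split_ifs <;> simp
  have hM : ∀ p, M p = ∑ᶠ P, if P ∈ S then 0 else ξ P * n P p := fun p => by
    simp only [M, ← hN p, sp _ (fn p), add_sub_cancel_left]
  have Mp : ∀ P ∉ S, ξ P ≠ 0 → 0 < M (r P) := fun P k m => by
    rw [hM]
    have : ∀ R, 0 ≤ if R ∈ S then 0 else ξ R * n R (r P) := fun R => by
      split_ifs with c
      · exact le_rfl
      · by_cases b : ξ R = 0
        · simp [b]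
        · by_cases e : r P = r R
          · exact mul_nonneg (h0 R) (e ▸ (hr R c b).1.le)
          · rw [(hr R c b).2 _ e, mul_zero]
    refine lt_of_lt_of_le ?_ (single_le_finsum P ((fn (r P)).subset fun R c b => c (by simp [b])) this)
    rw [if_neg k]
    exact mul_pos ((h0 P).lt_of_ne' m) (hr P k m).1
  let ξ' : ι → ℝ := fun P => if P ∈ S then ζ P else
    ξ P * ((N (r P) - ∑ R ∈ S, ζ R * n R (r P)) / M (r P))
  have g1 : ∀ P ∈ S, ξ' P = ζ P := fun P k => if_pos k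
  have g2 : ∀ P ∉ S, ξ P ≠ 0 → 0 ≤ ξ' P := fun P k m => by
    simp only [ξ', if_neg k]
    exact mul_nonneg (h0 P) (div_nonneg (sub_nonneg.2 (dd _).1) (Mp P k m).le)
  have g3 : ∀ P, ξ' P ≠ 0 → ξ P ≠ 0 := fun P h => by
    by_cases k : P ∈ S
    · exact ζ1 P (g1 P k ▸ h)
    · simp only [ξ', if_neg k] at h
      exact left_ne_zero_of_mul h
  have key : ∀ a : ι → ℝ, (Function.support fun P => ξ P * a P).Finite →
      ∑ᶠ P, ξ' P * a P = ∑ᶠ P, ξ P * a P + ∑ R ∈ S, (ζ R - ξ R) * (a R - cR R a) := fun a f => by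
    have f' : (Function.support fun P => ξ' P * a P).Finite := f.subset fun P k =>
      mul_ne_zero (g3 P (left_ne_zero_of_mul k)) (right_ne_zero_of_mul k)
    have fR : ∀ R, (Function.support fun P =>
        if P ∈ S then 0 else n R (r P) / M (r P) * (ξ P * a P)).Finite := fun R =>
      f.subset fun P k m => k (by simp [m])
    have : (∑ᶠ P, if P ∈ S then 0 else ξ' P * a P) = (∑ᶠ P, if P ∈ S then 0 else ξ P * a P) -
        ∑ R ∈ S, (ζ R - ξ R) * cR R a := by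
      simp only [cR, mul_finsum]
      rw [← finsum_sum_comm _ _ fun R _ => (fR R).subset fun P k m => k (by
        simp only [m, mul_zero]), ← finsum_sub_distrib (f.subset fun P k m => k (by simp [m]))
        (f.subset fun P k m => k (by simp [m]))]
      refine finsum_congr fun P => ?_
      split_ifs with k
      · simp
      · by_cases m : ξ P = 0
        · simp [ξ', k, m]
        · have := (Mp P k m).ne'
          have e : ∑ R ∈ S, (ζ R - ξ R) * (n R (r P) / M (r P) * (ξ P * a P)) =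
              (∑ R ∈ S, ζ R * n R (r P) - ∑ R ∈ S, ξ R * n R (r P)) * (ξ P * a P / M (r P)) := by
            rw [← Finset.sum_sub_distrib, Finset.sum_mul]
            exact Finset.sum_congr rfl fun _ _ => by ring
          simp only [ξ', if_neg k, e]
          field_simp
          simp only [M]
          ring
    rw [sp _ f', sp _ f, this, Finset.sum_congr rfl fun P k => by rw [g1 P k]]
    simp only [mul_sub, sub_mul, Finset.sum_sub_distrib]
    ring
  refine ⟨ξ', S.filter (· ∈ I) ∪ (Finset.univ.filter fun P : A => z P ≠ 0).image (↑), fun P => ?_,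
    Finset.union_subset (Finset.filter_subset _ _) fun P k => ?_, (Finset.card_union_le _ _).trans
      (Nat.add_le_add (Finset.card_le_card fun P k => (Finset.mem_filter.1 k).2)
        (Finset.card_image_le.trans (z2.trans (by simp)))), fun P k m => ?_, g3,
    fun j => by rw [key _ (fo j), z3, add_zero], fun p => ?_⟩
  · by_cases k : P ∈ S
    · exact (g1 P k).symm ▸ ζ0 P
    · by_cases m : ξ P = 0
      · simp [ξ', k, m]
      · exact g2 P k m
  · obtain ⟨P, -, rfl⟩ := Finset.mem_image.1 k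
    exact AS P.2
  · by_cases i : P ∈ I
    · exact Finset.mem_union_left _ (Finset.mem_filter.2 ⟨k, i⟩)
    · have a : P ∈ A := Finset.mem_filter.2 ⟨Finset.mem_sdiff.2 ⟨k, i⟩, g3 P m⟩
      exact Finset.mem_union_right _ (Finset.mem_image.2
        ⟨⟨P, a⟩, by simpa [← e1, ← g1 P k] using m, rfl⟩)
  · rw [key _ (fn p), hN, add_eq_left]
    have c : ∀ R, (cR R fun P => n P p) = n R p / M p * M p := fun R => by
      conv_rhs => rw [mul_comm, hM p, finsum_mul, ← hM p]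
      refine finsum_congr fun P => ?_
      split_ifs with k
      · simp
      · by_cases m : ξ P = 0
        · simp [m]
        · by_cases e : p = r P
          · rw [e, mul_comm]
          · simp [(hr P k m).2 p e]
    by_cases m : M p = 0
    · have a := (sub_eq_zero.1 m).symm
      simp only [c, m, mul_zero, sub_zero, sub_mul, Finset.sum_sub_distrib, a, (dd p).2 a,
        sub_self]
    · simp only [c, div_mul_cancel₀ _ m, sub_self, mul_zero, Finset.sum_const_zero]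

/-- Caratheodory on the kept primes, inside the support -/
theorem car {K : Type} [Field K] [Algebra ℂ K] {c ρ : ℕ} {s : Fin c → K}
    {y : Fin ρ → K} {T : Set (Pl K)} (fm : Tl.Fm s y (· ∈ T) id) (J : Finset (Pg c))
    (co : ∀ (i : Fin c) (p : Pg c), p.l ∣ MvPolynomial.X i → p ∈ J)
    {Q : Pl K} {ξ : Pl K → ℝ} (h : Rep s y T Q ξ) : ∃ (ξ' : Pl K → ℝ) (t : Finset (Pl K)),
      Rep s y T Q ξ' ∧ t.card ≤ ρ + J.card ∧ (∀ P ∈ Kt s y T J, ξ' P ≠ 0 → P ∈ t) ∧
        ↑t ⊆ Kt s y T J ∧ ∀ P, ξ' P ≠ 0 → ξ P ≠ 0 := by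
  classical
  have fin := (Tl.car52 K c ρ s y T J fm).1
  obtain ⟨-, f2, -, -, -, -, -, f8, -, f10, -⟩ := Pq.fac c ρ K s y fm.rat
  obtain ⟨-, -, -, -, -, d6⟩ := Tb.dic80 c ρ K s y fm.rat
  let S := fin.toFinset
  have hS : ∀ P, P ∈ S ↔ P ∈ Kt s y T J := fun P => fin.mem_toFinset
  have ne : ∀ {P p p'}, At s P (some p') → p ≠ p' → P.ord (lam s p) = 0 := fun a e => by
    rw [a.2, Pq.od, Finsupp.single_eq_of_ne e.symm, mul_zero]
  have ex : ∀ P ∉ S, ξ P ≠ 0 → ∃ p ∉ J, At s P (some p) := fun P k m => by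
    by_contra z
    exact k ((hS P).2 ⟨(h.sup P m).1, (h.sup P m).2, fun p a b => z ⟨p, a, b⟩⟩)
  let r : Pl K → Option (Pg c) := fun P =>
    if k : ∃ p ∉ J, At s P (some p) then some k.choose else none
  have fi : ∀ a : K, (Function.support fun P => ξ P * (P.ord a : ℝ)).Finite := fun a =>
    (fm.fin a).subset fun P k =>
      ⟨(h.sup P (left_ne_zero_of_mul k)).1, Int.cast_ne_zero.1 (right_ne_zero_of_mul k)⟩
  have hl : ∀ p, ∑ᶠ P, ξ P * (P.ord (lam s p) : ℝ) = Q.ord (lam s p) := fun p =>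
    h.eq _ ⟨Pq.F60.lam_ne (Pq.F60.ind_s fm.rat.ind) p, 0, Pq.F60.lam_mem p⟩
  have z0 : ∀ p ∈ J, ∀ P ∉ S, ξ P ≠ 0 → (P.ord (lam s p) : ℝ) = 0 := fun p a P k m => by
    obtain ⟨p', b, e⟩ := ex P k m
    rw [ne e fun z => b (z ▸ a), Int.cast_zero]
  have hJ : ∀ p ∈ J, ∑ P ∈ S, ξ P * (P.ord (lam s p) : ℝ) = Q.ord (lam s p) := fun p a => by
    rw [← hl, finsum_eq_sum_of_support_subset]
    exact fun P k => by_contra fun m => right_ne_zero_of_mul k (z0 p a P m (left_ne_zero_of_mul k))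
  have hs : ∀ η : Pl K → ℝ, (∀ p ∈ J, ∑ P ∈ S, η P * (P.ord (lam s p) : ℝ) = Q.ord (lam s p)) →
      ∀ i, ∑ P ∈ S, η P * (P.ord (s i) : ℝ) = Q.ord (s i) := fun η e i => by
    obtain ⟨b, n, b0, -, -, k, a⟩ := f10 (MvPolynomial.X i) (MvPolynomial.X_ne_zero i)
    rw [MvPolynomial.aeval_X] at a
    have o : ∀ P : Pl K, (P.ord (s i) : ℝ) = ∑ p ∈ n.support, n p * (P.ord (lam s p) : ℝ) :=
      fun P => by
        rw [a, P.ord_smul b0, f8, Finsupp.sum]
        simp
    simp only [o, Finset.mul_sum]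
    rw [Finset.sum_comm]
    refine Finset.sum_congr rfl fun p m => ?_
    rw [← e p (co i p (not_not.1 (mt (k p).2 (Finsupp.mem_support_iff.1 m)))), Finset.mul_sum]
    exact Finset.sum_congr rfl fun _ _ => by ring
  obtain ⟨ξ', t, a0, a1, a2, a3, a4, a6, a7⟩ := abs (β := Fin ρ ⊕ J) S ∅ ξ h.nn
    (fun P => Sum.elim (fun j => P.ord (y j)) fun p => P.ord (lam s p))
    (fun P o => o.elim 0 fun p => P.ord (lam s p)) r (fun o => o.elim 0 fun p => Q.ord (lam s p))
    (fun P k m => by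
      have e := ex P k m
      simp only [r, dif_pos e, Option.elim]
      refine ⟨Int.cast_pos.2 e.choose_spec.2.1, ?_⟩
      rintro (_ | p) b
      · rfl
      · exact Int.cast_eq_zero.2 (ne e.choose_spec.2 fun z => b (congrArg _ z)))
    (by rintro (j | p); exacts [fi _, fi _])
    (by rintro (_ | p); exacts [by simp, fi _]) (by rintro (_ | p); exacts [by simp, hl p])
    fun ζ ζ0 _ ζ2 e => by
      have eJ : ∀ p ∈ J, ∑ P ∈ S, ζ P * (P.ord (lam s p) : ℝ) = Q.ord (lam s p) := fun p a =>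
        (e (.inr ⟨p, a⟩) (z0 p a)).trans (hJ p a)
      rintro (_ | p)
      · simp
      by_cases a : p ∈ J
      · exact ⟨(eJ p a).le, fun _ => eJ p a⟩
      have pg : ∀ P ∈ S, Mv s P ∨ ∃ p', p' ≠ p ∧ Ax s P p' := fun P k =>
        (fm.pg P ((hS P).1 k).1).imp_right fun ⟨p', b⟩ =>
          ⟨p', fun z => ((hS P).1 k).2.2 p a (z ▸ b.1), b⟩
      have k1 := d6 Q S ζ p (fun P _ => ζ0 P) (fun P k _ => pg P k) (hs ζ eJ)
      have k2 := d6 Q S ξ p (fun P _ => h.nn P) (fun P k _ => pg P k) (hs ξ hJ)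
      refine ⟨k1.1, fun z => k1.2.2 ?_⟩
      obtain ⟨m, b, z1, z2⟩ := k2.2.1 z
      exact ⟨m, b, z1, fun P k n => z2 P k (ζ2 P n)⟩
  have sup := fun P k => h.sup P (a4 P k)
  refine ⟨ξ', t, ⟨a0, sup, fun a ⟨b, u, e⟩ => ?_⟩, a2.trans (by simp),
    fun P k => a3 P ((hS P).2 k), fun P k => (hS P).1 (a1 k), a4⟩
  refine (Tb.C85.oa_of Pq.fac (P := id) ⟨fm.rat, fm.fin⟩ sup Q 1 (fun j => ?_) (fun p => ?_) u a e b).trans
    (one_mul _)
  · have := f2 0 (Pi.single j 1)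
    rw [Pq.hm, Finsupp.prod_zero_index, one_mul, show To.mon y (Pi.single j 1) = y j by
      rw [To.mon, Finset.prod_eq_single j (fun i _ k => by simp [k]) (by simp)]; simp] at this
    exact (a6 (.inl j)).trans ((h.eq _ ⟨this.1, _, this.2⟩).trans (one_mul _).symm)
  · exact (a7 (some p)).trans (one_mul _).symm

variable {K : Type} [Field K] [Algebra ℂ K] {c ρ : ℕ} {s : Fin c → K} {y : Fin ρ → K}
  {T : Set (Pl K)} {Q : Pl K} {ξ : Pl K → ℝ}

theorem ho_s (fm : Tl.Fm s y (· ∈ T) id) (i : Fin c) : Ho s y (s i) :=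
  ⟨(Pq.F60.ind_s fm.rat.ind).ne_zero i, 0, s i, IntermediateField.subset_adjoin _ _ ⟨i, rfl⟩, by
    simp [To.mon]⟩

theorem ho_lam (fm : Tl.Fm s y (· ∈ T) id) (p : Pg c) : Ho s y (lam s p) :=
  ⟨Pq.F60.lam_ne (Pq.F60.ind_s fm.rat.ind) p, 0, Pq.F60.lam_mem p⟩

/-- a finite set which carries the sums -/
theorem car_set (fm : Tl.Fm s y (· ∈ T) id) (h : Rep s y T Q ξ) (p : Pg c) :
    ∃ S : Finset (Pl K), (∀ P ∉ S, ξ P ≠ 0 → P.ord (lam s p) = 0 ∧ ∀ i, P.ord (s i) = 0) ∧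
      ∑ P ∈ S, ξ P * (P.ord (lam s p) : ℝ) = Q.ord (lam s p) ∧
      ∀ i, ∑ P ∈ S, ξ P * (P.ord (s i) : ℝ) = Q.ord (s i) := by
  have f := (fm.fin (lam s p)).union (finite_iUnion fun i => fm.fin (s i))
  have k : ∀ P ∉ f.toFinset, ξ P ≠ 0 → P.ord (lam s p) = 0 ∧ ∀ i, P.ord (s i) = 0 := fun P a b =>
    ⟨by_contra fun e => a (f.mem_toFinset.2 (.inl ⟨(h.sup P b).1, e⟩)), fun i => by_contra fun e =>
      a (f.mem_toFinset.2 (.inr (mem_iUnion.2 ⟨i, (h.sup P b).1, e⟩)))⟩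
  refine ⟨f.toFinset, k, ?_, fun i => ?_⟩
  · rw [← h.eq _ (ho_lam fm p), finsum_eq_sum_of_support_subset]
    exact fun P a => by_contra fun m => Int.cast_ne_zero.1 (right_ne_zero_of_mul a)
      (k P m (left_ne_zero_of_mul a)).1
  · rw [← h.eq _ (ho_s fm i), finsum_eq_sum_of_support_subset]
    exact fun P a => by_contra fun m => Int.cast_ne_zero.1 (right_ne_zero_of_mul a)
      ((k P m (left_ne_zero_of_mul a)).2 i)

/-- a page without mass has one monomial which is minimal at `Q` and on the support -/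
theorem emp (fm : Tl.Fm s y (· ∈ T) id) (h : Rep s y T Q ξ) (p : Pg c)
    (hp : ∀ P, ξ P ≠ 0 → ¬ Ax s P p) :
    ∃ a ∈ p.l.support, Cm s Q p a ∧ ∀ P, ξ P ≠ 0 → Cm s P p a := by
  obtain ⟨S, k, e1, e2⟩ := car_set fm h p
  obtain ⟨a, b, c1, c2⟩ := ((Tb.dic80 c ρ K s y fm.rat).2.2.2.2.2 Q S ξ p (fun P _ => h.nn P)
    (fun P _ z => (fm.pg P (h.sup P z).1).imp_right fun ⟨p', e⟩ =>
      ⟨p', fun w => hp P z (w ▸ e), e⟩) e2).2.1 e1
  refine ⟨a, b, c1, fun P z => ?_⟩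
  by_cases m : P ∈ S
  · exact c2 P m z
  · simp [Cm, dt, (k P m z).1, (k P m z).2]

/-- a page without mass: a monomial which is minimal on the monomial support costs nothing -/
theorem cost (fm : Tl.Fm s y (· ∈ T) id) (h : Rep s y T Q ξ) (p : Pg c)
    (hp : ∀ P, ξ P ≠ 0 → ¬ Ax s P p) (a : Fin c →₀ ℕ)
    (ha : ∀ P, ξ P ≠ 0 → Mv s P → Cm s P p a) : Cm s Q p a := by
  obtain ⟨S, -, e1, e2⟩ := car_set fm h p
  have k : ∀ P, ξ P ≠ 0 → Cm s P p a := fun P z => (fm.pg P (h.sup P z).1).elim (ha P z)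
    fun ⟨p', e⟩ => (Tb.dic80 c ρ K s y fm.rat).2.2.2.1 P p' p e (fun w => hp P z (w ▸ e)) a
  have : (Q.ord (lam s p) : ℝ) = (dt s Q fun i => a i : ℤ) := by
    rw [← e1, dt]
    push_cast
    simp only [← e2, Finset.mul_sum]
    rw [Finset.sum_comm]
    refine Finset.sum_congr rfl fun P _ => ?_
    by_cases z : ξ P = 0
    · simp [z]
    · rw [k P z, dt]
      push_cast
      rw [Finset.mul_sum]
      exact Finset.sum_congr rfl fun i _ => by ring
  exact_mod_cast this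

end Vale.Agent.P283R.Tz.C25
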