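import Vale.Agent.P283R.Tb.Cnt85
import Vale.Agent.P283R.Tb.Mn80

/-!
# P283R, toric orbit spaces: the count of the heavy pages at monomial places
-/

open Set

noncomputable section

namespace Vale.Agent.P283R.Tz

open Vale.Agent.P287D Vale.Agent.P283M Vale.Agent.P283R.To Vale.Agent.P297Z
open Pq hiding hw0 fs_hm oa_of hwc
open MvPolynomial (aeval X)
open C67 (le_fs den)
open Tb.C85

variable {c ρ : ℕ} {K : Type} [Field K] [Algebra ℂ K] {s : Fin c → K} {y : Fin ρ → K}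
  {T : Set (Pl K)} {ε : ℝ} {q : ℕ} {κ : Pl K → ℤ}

/-- monomial places with given weights -/
theorem H52.plc (h : D.Rat (fr s y)) (W : Fin c → ℤ) (v : Fin ρ → ℤ) (a : Pg c → Fin c →₀ ℕ)
    (ha : ∀ p, a p ∈ p.l.support) (hm : ∀ p : Pg c, ∀ b ∈ p.l.support,
      ∑ i, a p i * W i ≤ ∑ i, b i * W i) :
    (v = 0 ∧ (∀ p, ∑ i, a p i * W i = 0) ∧ 0 ≤ ∑ i, W i) ∨ ∃ (R : Pl K) (e : ℕ), 0 < e ∧
      (∀ j, v j = e * R.ord (y j)) ∧ (∀ p, e * R.ord (lam s p) = ∑ i, a p i * W i) ∧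
      e * (cz s y R + 1) ≤ ∑ i, W i := by
  by_cases z : Fin.append W v = 0
  · have : ∀ i, W i = 0 := fun j => by simpa using congrFun z (j.castAdd ρ)
    exact .inl ⟨funext fun j => by simpa using congrFun z (j.natAdd c), fun p => by simp [this],
      by simp [this]⟩
  obtain ⟨R, e, e0, k, b⟩ := mon' _ K (fr s y) _ h z
  have a1 : ∀ j, W j = e * R.ord (s j) := fun j => by simpa [fr] using k (j.castAdd ρ)
  have sm : ∀ b : Fin c →₀ ℕ, ∑ i, b i * W i = e * ∑ i, b i * R.ord (s i) := fun b => by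
    simp only [a1, Finset.mul_sum, mul_left_comm]
  have e1 : (0 : ℤ) ≤ e := Int.natCast_nonneg e
  refine .inr ⟨R, e, e0, fun j => by simpa [fr] using k (j.natAdd c),
    fun p => le_antisymm ?_ ?_, ?_⟩
  · rw [sm]
    exact mul_le_mul_of_nonneg_left (Tb.G80.mono_fr h b (ha p)) e1
  · obtain ⟨m, m1, m2⟩ := G67.exm R (I80.s_ne h.ind) (F60.lam_ne (F60.ind_s h.ind) p)
    exact (hm p m m1).trans ((sm m).trans_le (mul_le_mul_of_nonneg_left m2 e1))
  · rw [Z80.la_eq, sub_nonpos] at b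
    simp only [a1, ← Finset.mul_sum]
    exact mul_le_mul_of_nonneg_left (by exact_mod_cast b) e1

open Classical in
/-- **the heavy pages** -/
theorem hvy (F : F1 s y T) (ε0 : 0 ≤ ε) (hq : 0 < q) {G : (Fin ρ → ℤ) →₀ K} (hG : Hg s y G)
    (g0 : tot G ≠ 0) (hw : Hw ε q s y (· ∈ T) id (tot G) κ) (κf : {E | E ∈ T ∧ κ E ≠ 0}.Finite)
    (eff : ∀ E ∈ T, q * cz s y E ≤ E.ord (tot G) + κ E) (Q : Pl K) (ζ : Pl K → ℝ) (ζ0 : 0 ≤ ζ)
    (hζ : ∀ E, ζ E ≠ 0 → E ∈ T ∧ ¬ Tv s y E)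
    (oζ : ∀ u, ∀ x ∈ Hm s y u, x ≠ 0 → ∑ᶠ E, ζ E * E.ord x ≤ Q.ord x)
    (S : Finset (Pl K)) (hS : ∀ P ∈ S, P ∈ T ∧ Mn s P ∧ ¬ Tv s y P) (H : Finset (Pg c))
    (hH : ∀ p ∈ H, ∃ P ∈ T, At s P (some p) ∧ 3 ≤ mu s P (some p))
    (em : ∀ p : Pg c, (¬ ∃ P ∈ T, At s P (some p)) →
      ∃ a ∈ p.l.support, ∀ P ∈ S, P.ord (lam s p) = ∑ i, a i * P.ord (s i)) (w : Pl K → ℕ) :
    ∃ a : Pg c → Fin c →₀ ℕ, (∀ p, a p ∈ p.l.support) ∧ 2 * ∑ p ∈ H, ∑ P ∈ S,
      (w P : ℤ) * (∑ i, a p i * P.ord (s i) - P.ord (lam s p)) ≤ 3 * ∑ P ∈ S, (w P : ℤ) := by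
  obtain ⟨-, -, -, f4, f5, -⟩ := fac c ρ K s y F.rat
  obtain ⟨c1, -⟩ := czr c ρ K s y F.rat
  obtain ⟨W, hW⟩ : ∃ W : Fin c → ℤ, ∀ i, W i = ∑ P ∈ S, w P * P.ord (s i) := ⟨_, fun _ => rfl⟩
  choose a ha hm using fun p : Pg c => p.l.support.exists_min_image (fun b => ∑ i, b i * W i)
    (MvPolynomial.support_nonempty.2 (F60.irr p).ne_zero)
  have ex : ∀ (b : Fin c →₀ ℕ) (p : Pg c), ∑ P ∈ S, (w P : ℤ) * (∑ i, b i * P.ord (s i) -
      P.ord (lam s p)) = ∑ i, b i * W i - ∑ P ∈ S, w P * P.ord (lam s p) := fun b p => by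
    simp only [hW, mul_sub, Finset.sum_sub_distrib, Finset.mul_sum, mul_left_comm]
    rw [Finset.sum_comm]
  obtain ⟨M, hM⟩ : ∃ M : Pg c → ℤ, ∀ p, M p = ∑ P ∈ S, (w P : ℤ) * (∑ i, a p i * P.ord (s i) -
    P.ord (lam s p)) := ⟨_, fun _ => rfl⟩
  have M0 : ∀ p, 0 ≤ M p := fun p => hM p ▸ Finset.sum_nonneg fun P k =>
    mul_nonneg (Int.natCast_nonneg _) (sub_nonneg.2 ((hS P k).2.1 _ _ (ha p)))
  have : ∀ p, ∃ E, M p ≠ 0 → E ∈ T ∧ At s E (some p) ∧ (p ∈ H → 3 ≤ mu s E (some p)) := fun p => by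
    by_cases k : p ∈ H
    · obtain ⟨E, e1, e2, e3⟩ := hH p k
      exact ⟨E, fun _ => ⟨e1, e2, fun _ => e3⟩⟩
    by_cases n : ∃ P ∈ T, At s P (some p)
    · obtain ⟨E, e1, e2⟩ := n
      exact ⟨E, fun _ => ⟨e1, e2, fun z => absurd z k⟩⟩
    refine ⟨Q, fun z => absurd (le_antisymm ?_ (M0 p)) z⟩
    obtain ⟨b, b1, b2⟩ := em p n
    have := ex b p
    rw [Finset.sum_eq_zero fun P k => by rw [b2 P k, sub_self, mul_zero]] at this
    have := hm p b b1
    rw [hM, ex]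
    omega
  choose b hb using this
  have bi : ∀ p p', M p ≠ 0 → M p' ≠ 0 → b p = b p' → p = p' := fun p p' i j e =>
    Option.some.inj (f4 _ _ _ (hb p i).2.1 (e ▸ (hb p' j).2.1))
  obtain ⟨θ, θ0, θ1, θ2⟩ : ∃ θ : Pl K → ℚ, (∀ E, 0 ≤ θ E) ∧
      (∀ E, θ E ≠ 0 → ∃ p, M p ≠ 0 ∧ b p = E) ∧
      ∀ p, M p ≠ 0 → θ (b p) = M p / mu s (b p) (some p) := by
    refine ⟨fun E => if h : ∃ p, M p ≠ 0 ∧ b p = E then M h.choose / mu s E (some h.choose) else 0,
      fun E => ?_, fun E z => by_contra fun n => z (dif_neg n), fun p z => ?_⟩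
    · by_cases h : ∃ p, M p ≠ 0 ∧ b p = E
      · have := (hb _ h.choose_spec.1).2.1.1.le
        rw [h.choose_spec.2] at this
        simp only [dif_pos h]
        exact div_nonneg (Int.cast_nonneg (M0 _)) (Int.cast_nonneg this)
      · simp only [dif_neg h, le_rfl]
    · have h : ∃ p', M p' ≠ 0 ∧ b p' = b p := ⟨p, z, rfl⟩
      have : h.choose = p := bi _ _ h.choose_spec.1 z h.choose_spec.2
      simp only [dif_pos h, this]
  obtain ⟨t, v, t0, hv⟩ := den fun j => ∑ᶠ E, θ E * E.ord (y j)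
  obtain ⟨η, hη⟩ : ∃ η : Pl K → ℝ, ∀ E, η E = t * θ E := ⟨_, fun _ => rfl⟩
  have η0 : 0 ≤ η := fun E => by
    have : (0 : ℝ) ≤ θ E := Rat.cast_nonneg.2 (θ0 E)
    rw [hη]
    positivity
  have η1 : ∀ E, η E ≠ 0 → ∃ p, M p ≠ 0 ∧ b p = E := fun E z => θ1 E fun n => z (by simp [hη, n])
  have η2 : ∀ E, η E ≠ 0 → E ∈ T ∧ ¬ Tv s y E := fun E z => by
    obtain ⟨p, k, rfl⟩ := η1 E z
    exact ⟨(hb p k).1, (f5 _ _ (hb p k).2.1).1⟩
  have η3 : ∀ p, ∑ᶠ E, η E * E.ord (lam s p) = t * M p := fun p => by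
    have o : ∀ E, (M p ≠ 0 → E ≠ b p) → η E * E.ord (lam s p) = 0 := fun E n => by
      by_cases z : η E = 0
      · simp [z]
      · obtain ⟨p', k, rfl⟩ := η1 E z
        simp [at_ne (hb p' k).2.1 fun e : p = p' => n (e ▸ k) (e ▸ rfl)]
    by_cases z : M p = 0
    · simp [z, o _ fun n => absurd z n]
    · have m0 : (mu s (b p) (some p) : ℝ) ≠ 0 := Int.cast_ne_zero.2 (hb p z).2.1.1.ne'
      rw [finsum_eq_single _ (b p) fun E n => o E fun _ => n, hη, θ2 p z]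
      push_cast
      rw [mul_assoc, show ((b p).ord (lam s p) : ℝ) = mu s (b p) (some p) from rfl,
        div_mul_cancel₀ _ m0]
  let χ : Pl K → ℝ := fun E => if E ∈ S then t * w E else 0
  have χ2 : ∀ E, χ E ≠ 0 → E ∈ T ∧ ¬ Tv s y E := fun E z =>
    have k := hS E (by_contra fun n => z (if_neg n))
    ⟨k.1, k.2.2⟩
  have sp : ∀ Φ : Pl K → ℤ, {E | E ∈ T ∧ Φ E ≠ 0}.Finite → ∑ᶠ E, (η + χ) E * Φ E =
      ∑ᶠ E, η E * Φ E + t * ∑ P ∈ S, (w P : ℝ) * Φ P := fun Φ h => by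
    simp only [Pi.add_apply, add_mul]
    rw [finsum_add_distrib (fs_fin (P := id) η2 h) (fs_fin (P := id) χ2 h),
      finsum_eq_sum_of_support_subset (fun E => χ E * Φ E) (s := S) fun E z =>
        by_contra fun n => left_ne_zero_of_mul z (if_neg n), Finset.mul_sum]
    exact congrArg _ (Finset.sum_congr rfl fun E a => by
      rw [show χ E = t * w E from if_pos a, mul_assoc])
  obtain ⟨u, hu, k⟩ := hwc fac sums F.toF0 ε0 hG g0 hw κf Q ζ ζ0 hζ oζ (η + χ)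
    (add_nonneg η0 fun E => ite_nonneg (by positivity) le_rfl)
    (fun E z => by
      by_cases a : η E = 0
      · exact χ2 E (by simpa [a] using z)
      · exact η2 E a)
    (v + fun j => t * ∑ P ∈ S, w P * P.ord (y j)) (fun p => ∑ i, a p i * (t * W i)) (∑ i, t * W i)
    (fun j => by
      have a := congrArg (Rat.castHom ℝ) (hv j)
      have b := (Rat.castHom ℝ).toAddMonoidHom.map_finsum_of_injective Rat.cast_injective
        fun E => θ E * E.ord (y j)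
      refine (sp (fun E => E.ord (y j)) (F.fin _)).trans ?_
      simp only [hη, fs_mul]
      simp only [RingHom.toAddMonoidHom_eq_coe, AddMonoidHom.coe_coe, map_mul, map_natCast,
        map_intCast] at a b
      rw [Pi.add_apply, Int.cast_add, ← a, b]
      push_cast
      rfl)
    (fun p => by
      refine (sp (fun E => E.ord (lam s p)) (F.fin _)).trans ?_
      rw [η3, hM, ex]
      simp only [mul_left_comm _ (t : ℤ), ← Finset.mul_sum]
      push_cast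
      ring)
    (H52.plc F.rat _ _ a ha fun p b k => by
      simp only [mul_left_comm _ (t : ℤ), ← Finset.mul_sum]
      exact mul_le_mul_of_nonneg_left (hm p b k) (Int.natCast_nonneg t))
  refine ⟨a, ha, ?_⟩
  have q0 : (0 : ℤ) ≤ q := Int.natCast_nonneg q
  have lo : ∀ E ∈ T, ¬ Tv s y E → q * cz s y E ≤ E.ord (G u) + κ E := fun E a b => by
    have := F.inv E a b G hG u hu
    have := eff E a
    omega
  have nn : ∀ p, M p ≠ 0 → q * (mu s (b p) (some p) - 1) ≤ (b p).ord (G u) + κ (b p) := fun p z =>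
    (mul_le_mul_of_nonneg_left (c1 _ p (hb p z).2.1) q0).trans
      (lo _ (hb p z).1 (f5 _ _ (hb p z).2.1).1)
  have s1 := fs_fin (P := id) η2 (F.fin (G u))
  have s2 := fs_fin (P := id) η2 κf
  have s4 := le_fs (f := fun E => η E * E.ord (G u) + η E * κ E)
    ((s1.union s2).subset (Function.support_add _ _)) (fun E => by
      by_cases z : η E = 0
      · simp [z]
      · obtain ⟨p, z', rfl⟩ := η1 E z
        rw [← mul_add, ← Int.cast_add]
        exact mul_nonneg (η0 _) (Int.cast_nonneg ((mul_nonneg q0 (by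
          have := (hb p z').2.1.1
          omega)).trans (nn p z')))) ((H.filter (M · ≠ 0)).image b)
  simp only [id] at k s1
  rw [finsum_add_distrib s1 s2, Finset.sum_image fun p i p' j e =>
    bi p p' (Finset.mem_filter.1 i).2 (Finset.mem_filter.1 j).2 e] at s4
  rw [sp (fun E => E.ord (G u)) (F.fin _), sp κ κf] at k
  have s6 : (q : ℝ) * (∑ i, (W i : ℝ) - ∑ P ∈ S, (w P : ℝ)) ≤
      ∑ P ∈ S, (w P : ℝ) * P.ord (G u) + ∑ P ∈ S, (w P : ℝ) * κ P := by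
    have : (q : ℤ) * (∑ i, W i - ∑ P ∈ S, (w P : ℤ)) ≤
        ∑ P ∈ S, (w P : ℤ) * P.ord (G u) + ∑ P ∈ S, (w P : ℤ) * κ P := by
      simp only [hW]
      rw [Finset.sum_comm, ← Finset.sum_sub_distrib, Finset.mul_sum, ← Finset.sum_add_distrib]
      refine Finset.sum_le_sum fun P a => ?_
      have i1 := Z80.la_int F.rat P
      have i2 := lo P (hS P a).1 (hS P a).2.2
      rw [← Finset.mul_sum, ← mul_add, ← mul_sub_one, mul_left_comm]
      exact mul_le_mul_of_nonneg_left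
        ((mul_le_mul_of_nonneg_left (by omega) q0).trans i2) (Int.natCast_nonneg _)
    exact_mod_cast this
  have t1 : (0 : ℝ) < t * q := mul_pos (Nat.cast_pos.2 t0) (Nat.cast_pos.2 hq)
  have s5 : (t * q : ℝ) * (2 * ∑ p ∈ H, (M p : ℝ)) ≤ t * q * (3 * ∑ P ∈ S, (w P : ℝ)) := by
    have s7 : (t * q : ℝ) * (2 * ∑ p ∈ H, (M p : ℝ)) ≤ 3 * ∑ p ∈ H.filter (M · ≠ 0),
        (η (b p) * (b p).ord (G u) + η (b p) * κ (b p)) := by
      rw [← Finset.sum_filter_ne_zero, Finset.mul_sum, Finset.mul_sum, Finset.mul_sum]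
      simp only [Int.cast_ne_zero]
      refine Finset.sum_le_sum fun p i => ?_
      obtain ⟨i, z⟩ := Finset.mem_filter.1 i
      have m3 : (3 : ℝ) ≤ mu s (b p) (some p) := by exact_mod_cast (hb p z).2.2 i
      have n1 : (q : ℝ) * (mu s (b p) (some p) - 1) ≤ (b p).ord (G u) + κ (b p) := by
        exact_mod_cast nn p z
      have m0 : (0 : ℝ) ≤ t * M p := mul_nonneg (Nat.cast_nonneg t) (Int.cast_nonneg (M0 p))
      have q1 : (0 : ℝ) ≤ q := Nat.cast_nonneg q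
      rw [← mul_add, hη, θ2 p z]
      push_cast
      rw [← mul_div_assoc, div_mul_eq_mul_div, ← mul_div_assoc, le_div_iff₀ (by linarith)]
      nlinarith [mul_le_mul_of_nonneg_left n1 m0, mul_nonneg (mul_nonneg m0 q1) (sub_nonneg.2 m3)]
    push_cast at k
    rw [← Finset.mul_sum] at k
    nlinarith [mul_le_mul_of_nonneg_left s6 (Nat.cast_nonneg (α := ℝ) t)]
  simp only [← hM]
  exact_mod_cast le_of_mul_le_mul_left s5 t1

end Vale.Agent.P283R.Tz
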