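import Vale.Agent.P283R.Tz.St
import Vale.Agent.P283R.Tz.Hvy52
import Vale.Agent.P283R.Tz.Car25

/-!
# P283R, block TY: the row LPR
-/

noncomputable section

namespace Vale.Agent.P283R.Tz

/-- **LPR** -/
theorem lpr52 : LPR := fun _ K _ _ c ρ s y T d q ε G κ Q ξ I H S ω st hH hS => by
  have fm := st.pk.fm
  obtain ⟨a, a1, a2⟩ := hvy (Tl.f1_85 fm) st.e0.le st.q0 st.od.hg st.pk.g0 st.pk.hw st.pk.fin
    (fun E a => by
      have := st.pk.eff E a
      omega) Q ξ st.rep.nn st.rep.sup (fun u x hx x0 => (st.rep.eq x ⟨x0, u, hx⟩).le) S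
    (fun P h => ⟨(hS P h).1, (hS P h).2.2, (hS P h).2.1⟩) H (fun p h => (hH p h).2)
    (fun p h => by
      obtain ⟨a, b, -, e⟩ := C25.emp fm st.rep p fun P z k => h ⟨P, (st.rep.sup P z).1, k.1⟩
      exact ⟨a, b, fun P x => e P (st.pos P ⟨(hS P x).1, (hS P x).2.1, fun p' n k =>
        Tb.C85.not_mn fm.rat k (fun i j => n (st.od.od.co i p' j)) (hS P x).2.2⟩).ne'⟩) ω
  exact ⟨a, fun p _ => a1 p, a2⟩

end Vale.Agent.P283R.Tz
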