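import Vale.Agent.P283R.Tz.St
import Vale.Agent.P283R.Tz.Spl22

/-!
# P283R, block TY: the orders of the monomial sections
-/

open Set

noncomputable section

namespace Vale.Agent.P283R.Tz

open Vale.Agent.P287D Vale.Agent.P283M Vale.Agent.P297Z Cx Cy
open Vale.Agent.P283R.To (mon)
open Pq (Tv At lam mu fr Pg)
open Tb (dt)

/-- **ORM** -/
theorem orm45 : ORM := by
  intro c ρ K _ _ s y rat a N v u n hN
  have s0 := S22.s_ne rat
  have y0 : ∀ j, y j ≠ 0 := fun j => by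
    have := rat.ind.ne_zero (Fin.natAdd _ j)
    rwa [fr, Fin.append_right] at this
  have l0 : ∀ p, lam s p ≠ 0 := Pq.F60.lam_ne (Pq.F60.ind_s rat.ind)
  have d0 : ∀ p, (lam s p / mon s fun i => a p i) ≠ 0 := fun p =>
    div_ne_zero (l0 p) (To.mon_ne s0 _)
  have p0 : ∏ p ∈ N, (lam s p / mon s fun i => a p i) ^ n p ≠ 0 :=
    Finset.prod_ne_zero_iff.2 fun p _ => zpow_ne_zero _ (d0 p)
  have m0 := mul_ne_zero (To.mon_ne y0 v) (To.mon_ne s0 u)
  have o : ∀ P : Pl K, P.ord (mo s y a N v u n) =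
      ∑ j, v j * P.ord (y j) + dt s P u - ∑ p ∈ N, n p * wd s p (a p) P := fun P => by
    rw [mo, Pl.ord_mul _ m0 p0, Pl.ord_mul _ (To.mon_ne y0 v) (To.mon_ne s0 u), To.ord_mon P y0,
      S22.ord_mon rat, Pl.ord_prod _ _ fun p _ => zpow_ne_zero _ (d0 p), sub_eq_add_neg,
      ← Finset.sum_neg_distrib]
    refine congrArg _ (Finset.sum_congr rfl fun p _ => ?_)
    rw [Pl.ord_zpow, Pl.ord_div _ (l0 p) (To.mon_ne s0 _), S22.ord_mon rat, wd]
    ring
  have dz : ∀ (P : Pl K) p, Tb.C85.Nc p → At s P (some p) → ∀ m, dt s P m = 0 := fun P p h k m => by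
    simp [dt, Tb.C85.s0 rat h k]
  refine ⟨mul_ne_zero m0 p0, o, fun P p hp k => ?_, fun P p h hp k => ?_, fun P t => ?_⟩
  · rw [o, dz P p (hN p hp) k, Finset.sum_eq_single_of_mem p hp fun p' _ e => by
      rw [wd, dz P p (hN p hp) k, Tb.C85.at_ne k e, sub_zero, mul_zero], wd, dz P p (hN p hp) k, mu]
    ring
  · have z : ∑ p' ∈ N, n p' * wd s p' (a p') P = 0 := Finset.sum_eq_zero fun p' h' => by
      rw [wd, dz P p h k, Tb.C85.at_ne k fun e => hp (e ▸ h'), sub_zero, mul_zero]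
    rw [o, dz P p h k, z, add_zero, sub_zero]
  · have ms : ∀ m, mon s m ∈ IntermediateField.adjoin ℂ (range s) := fun m =>
      prod_mem fun i _ => zpow_mem (IntermediateField.subset_adjoin _ _ (mem_range_self i)) _
    refine t v _ ⟨mon s u * ∏ p ∈ N, (lam s p / mon s fun i => a p i) ^ n p, mul_mem (ms u)
      (prod_mem fun p _ => zpow_mem (div_mem ?_ (ms _)) _), by rw [mo]; ring⟩ (mul_ne_zero m0 p0)
    obtain ⟨φ, h, e⟩ := Pq.F60.lam_mem (s := s) (y := y) p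
    rwa [e, Pq.F60.mon_zero, mul_one]

end Vale.Agent.P283R.Tz
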