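import Vale.Agent.P283R.Tz.St

/-!
# P283R, block TY: the selection of the monomials
-/

open Set

noncomputable section

namespace Vale.Agent.P283R.Tz

open Vale.Agent.P287D Vale.Agent.P283M Cx Cy
open Pq (At lam mu Pg)
open Wc (Kt)
open Tb.C85 (Nc)

/-- **SER** -/
theorem ser89 : SER := by
  classical
  intro sf zm vtx hvy lpi d q
  obtain ⟨C, hC⟩ := hvy d q
  refine ⟨C + d + d, fun K _ _ c ρ s y T ε G κ Q ξ I st => ?_⟩
  have fm := st.pk.fm
  have dm := st.pk.dim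
  obtain ⟨ξ', D, vx⟩ := vtx K c ρ s y T Q ξ fm st.rep
  obtain ⟨J₁, cJ, hJ⟩ := hC K c ρ s y T ε G κ Q ξ ξ' I D st vx
  have kt : ∀ P, Ry s y T P → P ∈ Kt s y T I := fun P h => ⟨h.1, h.2.1, fun p n b =>
    Tb.C85.not_mn fm.rat b (fun i k => n (st.od.od.co i p k)) h.2.2⟩
  have fin : {P | Ry s y T P}.Finite := (Tl.car52 K c ρ s y T I fm).1.subset kt
  let H := I.filter (Hv s T)
  have hH : ∀ p, p ∈ H ↔ Hv s T p := fun p => Finset.mem_filter.trans (and_iff_right_of_imp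
    fun ⟨_, P, a, b, e⟩ => by_contra fun n => by
      have := (st.od.od.od P a p n b).1
      omega)
  obtain ⟨a, E, cE, aS, le⟩ := sf c _ _ _ H fin.toFinset (fun p => p.l.support)
    (fun a i => (a i : ℤ)) (fun P i => P.ord (s i)) (fun p P => P.ord (lam s p))
    (fun p _ a ha P hP => (fin.mem_toFinset.1 hP).2.2 p.l a ha) fun ω =>
      lpi K c ρ s y T d q ε G κ Q ξ I H _ ω st (fun p => (hH p).1) fun P => fin.mem_toFinset.1
  replace le : ∀ P, Ry s y T P → ∀ H' ⊆ H, (∀ p ∈ H', p ∉ E) → ∑ p ∈ H', wd s p (a p) P ≤ 1 :=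
    fun P h => le P (fin.mem_toFinset.2 h)
  have ch : ∀ p : Pg c, ∃ a' ∈ p.l.support, (Hv s T p → a' = a p) ∧
      (Nc p → ¬ Hv s T p → wd s p a' Q ≤ 0) ∧ (Nc p → (¬ ∃ P ∈ T, At s P (some p)) →
        wd s p a' Q = 0 ∧ ∀ P, Ry s y T P → wd s p a' P = 0) := fun p => by
    by_cases h : Hv s T p
    · exact ⟨_, aS p ((hH p).2 h), fun _ => rfl, fun _ n => (n h).elim,
        fun _ n => let ⟨_, P, u, v, _⟩ := h; (n ⟨P, u, v⟩).elim⟩
    by_cases n : Nc p
    · obtain ⟨⟨a₁, z1, z2⟩, z3⟩ := zm K c ρ s y T Q ξ p fm st.rep n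
      by_cases e : ∃ P ∈ T, At s P (some p)
      · exact ⟨a₁, z1, fun k => (h k).elim, fun _ _ => z2, fun _ k => (k e).elim⟩
      · obtain ⟨z4, a₂, z5, z6⟩ := z3 fun P b => by_contra fun k => e ⟨P, (st.rep.sup P k).1, b⟩
        exact ⟨a₂, z5, fun k => (h k).elim, fun _ _ => (z4 _ z6).le, fun _ _ =>
          ⟨z4 _ z6, fun P r => z6 P (st.pos P (kt P r)).ne' r.2.2⟩⟩
    · obtain ⟨a₁, z⟩ := MvPolynomial.support_nonempty.2 ((Pq.pol c).1 p).1.ne_zero
      exact ⟨a₁, z, fun k => (h k).elim, fun k => (n k).elim, fun k => (n k).elim⟩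
  choose a' s1 s2 s3 s4 using ch
  let F := fun P => H.filter fun p => p ∉ E ∧ Ry s y T P ∧ wd s p (a p) P ≠ 0
  have cF : ∀ P ∈ D, (F P).card ≤ 1 := fun P _ => by
    rcases (F P).eq_empty_or_nonempty with e | ⟨p₀, e⟩
    · simp [e]
    have r := (Finset.mem_filter.1 e).2.2.1
    have := le P r (F P) (Finset.filter_subset _ _) fun p h => (Finset.mem_filter.1 h).2.1
    have k := Finset.card_nsmul_le_sum (F P) (fun p => wd s p (a p) P) 1 fun p h => by
      obtain ⟨u, -, -, v⟩ := Finset.mem_filter.1 h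
      have : 0 ≤ wd s p (a p) P := sub_nonneg.2 (r.2.2 p.l _ (aS p u))
      omega
    simp only [nsmul_eq_mul, mul_one] at k
    omega
  have nJ : ∀ p, Hv s T p → p ∉ (J₁ ∪ E ∪ D.biUnion F).filter (Hv s T) →
      p ∉ J₁ ∧ p ∉ E ∧ p ∉ D.biUnion F := fun p h n => by
    simpa only [Finset.mem_filter, h, and_true, Finset.mem_union, not_or, and_assoc] using n
  have hc : ∀ p, Hv s T p → p ∉ (J₁ ∪ E ∪ D.biUnion F).filter (Hv s T) →
      wd s p (a' p) Q = 0 := fun p h n => by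
    obtain ⟨n1, n2, n3⟩ := nJ p h n
    rw [s2 p h]
    refine ((zm K c ρ s y T Q ξ' p fm vx.rep h.1).2 (hJ p h n1)).1 _ fun P u v => ?_
    by_contra w
    exact n3 (Finset.mem_biUnion.2 ⟨P, vx.ray P u v, Finset.mem_filter.2 ⟨(hH p).2 h, n2,
      ⟨(vx.rep.sup P u).1, (vx.rep.sup P u).2, v⟩, w⟩⟩)
  refine ⟨ξ', D, (J₁ ∪ E ∪ D.biUnion F).filter (Hv s T), a', vx, ?_,
    fun p h => (Finset.mem_filter.1 h).2, s1, fun p n k => ?_, s4, hc, fun P r H' h => ?_⟩
  · have c1 := Finset.card_biUnion_le_card_mul D F 1 cF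
    have c2 := Finset.card_union_le (J₁ ∪ E) (D.biUnion F)
    have c3 := Finset.card_union_le J₁ E
    have c4 := Finset.card_filter_le (J₁ ∪ E ∪ D.biUnion F) (Hv s T)
    have := vx.card
    omega
  · by_cases h : Hv s T p
    · exact (hc p h k).le
    · exact s3 p n h
  · rw [Finset.sum_congr rfl fun p u => by rw [s2 p (h p u).1]]
    exact le P r H' (fun p u => (hH p).2 (h p u).1) fun p u => (nJ p (h p u).1 (h p u).2).2.1

end Vale.Agent.P283R.Tz
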