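import Vale.Agent.P283R.Tz.Sf41

/-!
# P283R, block TY: the selection, for finite sets
-/

set_option linter.all false

open Finset

namespace Vale.Agent.P283R.Tz.S41

open Classical in
/-- **the selection** -/
theorem sel' {π α ι : Type} {c : ℕ} (H : Finset π) (A : π → Finset α) (x : α → Fin c → ℤ)
    (R : Finset ι) (v : ι → Fin c → ℤ) (o : π → ι → ℤ)
    (ho : ∀ p ∈ H, ∀ a ∈ A p, ∀ P ∈ R, o p P ≤ x a ⬝ᵥ v P)
    (h : ∀ w : ι → ℕ, ∃ a : π → α, (∀ p ∈ H, a p ∈ A p) ∧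
      2 * ∑ p ∈ H, ∑ P ∈ R, w P * (x (a p) ⬝ᵥ v P - o p P) ≤ 3 * ∑ P ∈ R, (w P : ℤ)) :
    ∃ E ⊆ H, E.card ≤ c ∧ ∃ a : π → α, (∀ p ∈ H, a p ∈ A p) ∧
      ∀ P ∈ R, ∑ p ∈ H \ E, (x (a p) ⬝ᵥ v P - o p P) ≤ 1 := by
  obtain ⟨a₀, -⟩ := h 0
  obtain ⟨J, a, hJ, ha, k⟩ := sel (π := H) (ι := (p : H) × A p) (R := R) (fun l => l.1)
    (fun l => x l.2) (fun P => v P) (fun p P => o p P)
    (fun l P => ho _ l.1.2 _ l.2.2 _ P.2) fun w => by
      obtain ⟨a, ha, k⟩ := h fun P => if t : P ∈ R then w ⟨P, t⟩ else 0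
      refine ⟨fun p => ⟨p, a p, ha p p.2⟩, fun _ => rfl, ?_⟩
      rw [← sum_coe_sort H, ← sum_coe_sort R] at k
      simp only [← sum_coe_sort R, Subtype.property, dite_true, Subtype.coe_eta] at k
      exact k
  refine ⟨J.map (Function.Embedding.subtype _), fun p hp => ?_, by rwa [card_map],
    fun p => if t : p ∈ H then (a ⟨p, t⟩).2 else a₀ p, fun p t => ?_, fun P t => ?_⟩
  · obtain ⟨q, -, rfl⟩ := mem_map.1 hp
    exact q.2
  · have := (a ⟨p, t⟩).2.2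
    simp only [dif_pos t]
    exact (congrArg (fun q : H => ((a ⟨p, t⟩).2 : α) ∈ A q) (ha ⟨p, t⟩)).mp this
  · refine le_of_eq_of_le ?_ (k ⟨P, t⟩)
    rw [show H \ J.map (Function.Embedding.subtype _) =
      (univ.filter (· ∉ J)).map (Function.Embedding.subtype _) from ?_, sum_map]
    · exact sum_congr rfl fun p _ => by simp [p.2]
    · ext p
      simp only [mem_sdiff, mem_map, mem_filter, mem_univ, true_and,
        Function.Embedding.coe_subtype, Subtype.exists, exists_and_right, exists_eq_right]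
      exact ⟨fun ⟨a, b⟩ => ⟨a, fun z => b ⟨a, z⟩⟩, fun ⟨a, b⟩ => ⟨a, fun ⟨_, z⟩ => b z⟩⟩

end Vale.Agent.P283R.Tz.S41
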