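import Vale.Agent.P283R.Tz.St
import Vale.Agent.P283R.Tz.Sel41

/-!
# P283R, block TY: the selection of the vectors (row `SF`)
-/

set_option linter.all false

namespace Vale.Agent.P283R.Tz

theorem sf14 : SF := fun c π α β H S A x v o ho h => by
  classical
  obtain ⟨E, -, cE, a, ha, k⟩ := S41.sel' H A x S v o ho h
  refine ⟨a, E, cE, ha, fun r hr H' le ne => le_trans ?_ (k r hr)⟩
  refine Finset.sum_le_sum_of_subset_of_nonneg (fun p hp => ?_) fun p hp _ => ?_
  · exact Finset.mem_sdiff.2 ⟨le hp, ne p hp⟩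
  · exact sub_nonneg.2 (ho p (Finset.mem_sdiff.1 hp).1 _ (ha p (Finset.mem_sdiff.1 hp).1) r hr)

end Vale.Agent.P283R.Tz
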