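import Vale.Agent.P283R.Tz.St
import Vale.Agent.P283R.Tz.Car25
import Vale.Agent.P283R.Tb.Mco85

/-!
# P283R, block TY: Caratheodory on the monomial primes
-/

open Set

noncomputable section

namespace Vale.Agent.P283R.Tz

open Vale.Agent.P287D Vale.Agent.P283M
open Pq (Pg)

theorem vtx57 : VTX := by
  intro K _ _ c ρ s y T Q ξ fm h
  classical
  have ir : ∀ i : Fin c, Irreducible (MvPolynomial.X i : MvPolynomial (Fin c) ℂ) := fun i =>
    (MvPolynomial.X_prime (i := i)).irreducible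
  let pg : Fin c → Pg c := fun i => ⟨Associates.mk (.X i), Associates.irreducible_mk.2 (ir i)⟩
  have as : ∀ i, Associated (pg i).l (.X i) := fun i =>
    Associates.mk_eq_mk_iff_associated.1 (Quot.out_eq _)
  obtain ⟨ξ', t, r, cd, m, -, -⟩ := C25.car fm (Finset.univ.image pg) (fun i p d =>
    Finset.mem_image.2 ⟨i, Finset.mem_univ _,
      ((Pq.pol60 c).2.1 p (pg i) (d.trans (as i).symm.dvd)).symm⟩) h
  refine ⟨ξ', t, r, cd.trans ?_, fun P z mv => m P ⟨(r.sup P z).1, (r.sup P z).2, fun p n a =>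
    Tb.C85.not_mn fm.rat a (fun i d => n (Finset.mem_image.2 ⟨i, Finset.mem_univ _,
      ((Pq.pol60 c).2.1 p (pg i) (d.trans (as i).symm.dvd)).symm⟩)) mv⟩ z⟩
  have := (Finset.card_image_le (s := Finset.univ) (f := pg)).trans_eq (Finset.card_fin c)
  omega

end Vale.Agent.P283R.Tz
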