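import Vale.Agent.P283R.Tz.St
import Vale.Agent.P283R.Tz.Car25

/-!
# P283R, block TY, row ZM: pages of mass zero
-/

set_option linter.all false

noncomputable section

namespace Vale.Agent.P283R.Tz

open Vale.Agent.P287D

/-- **ZM** -/
theorem zm8 : ZM := fun K _ _ c ρ s y T Q ξ p fm h n => by
  refine ⟨?_, fun z => ?_⟩
  · obtain ⟨a, b, e⟩ := (Tb.dic80 c ρ K s y fm.rat).1 Q p.l (Pq.F60.irr p).ne_zero
    exact ⟨a, b, sub_nonpos.2 e⟩
  have hp : ∀ P, ξ P ≠ 0 → ¬ Tb.Ax s P p := fun P a b => a (z P b.1)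
  refine ⟨fun a ha => sub_eq_zero.2 (C25.cost fm h p hp a fun P x v =>
    (sub_eq_zero.1 (ha P x v)).symm).symm, ?_⟩
  obtain ⟨a, b, -, e⟩ := C25.emp fm h p hp
  exact ⟨a, b, fun P x _ => sub_eq_zero.2 (e P x).symm⟩

end Vale.Agent.P283R.Tz
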