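import Vale.Agent.P283R.Tl.E42

/-!
# P283R, block TY: torus actions whose orbit space is any toric variety, the statements
-/

open Set

noncomputable section

namespace Vale.Agent.P283R.Tz

open Vale.Agent.P287D Vale.Agent.P283M Cx Cy
open Vale.Agent.P283R.To (mon)
open Pq (Tv At cz lam mu fr tot Pg ForR)
open Wc (Kt Rep Sec ForA)
open Tb (dt Mv)
open Tb.C85 (Nc)
open Tl (Fm Pk)

section defs

variable {K : Type} [Field K] [Algebra ℂ K] {c ρ : ℕ}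

/-- the invariant primes which are monomial -/
def Ry (s : Fin c → K) (y : Fin ρ → K) (T : Set (Pl K)) (P : Pl K) : Prop :=
  P ∈ T ∧ ¬ Tv s y P ∧ Mv s P

/-- the heavy pages -/
def Hv (s : Fin c → K) (T : Set (Pl K)) (p : Pg c) : Prop :=
  Nc p ∧ ∃ P ∈ T, At s P (some p) ∧ 3 ≤ mu s P (some p)

/-- the defect of the monomial `a` of the page `p` at the place `P` -/
def wd (s : Fin c → K) (p : Pg c) (a : Fin c →₀ ℕ) (P : Pl K) : ℤ :=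
  dt s P (fun i => a i) - P.ord (lam s p)

/-- the monomial sections -/
def mo (s : Fin c → K) (y : Fin ρ → K) (a : Pg c → Fin c →₀ ℕ) (N : Finset (Pg c))
    (v : Fin ρ → ℤ) (u : Fin c → ℤ) (n : Pg c → ℤ) : K :=
  mon y v * mon s u * ∏ p ∈ N, (lam s p / mon s fun i => a p i) ^ n p

/-- the state after Goldman and Tucker -/
structure St (d q : ℕ) (ε : ℝ) (s : Fin c → K) (y : Fin ρ → K) (T : Set (Pl K))
    (G : (Fin ρ → ℤ) →₀ K) (κ : Pl K → ℤ) (Q : Pl K) (ξ : Pl K → ℝ) (I : Finset (Pg c)) : Prop where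
  e0 : 0 < ε
  q0 : 0 < q
  pk : Pk d q ε s y T (tot G) κ
  od : Wc.Or s y T G κ I
  rep : Rep s y T Q ξ
  pos : ∀ P ∈ Kt s y T I, 0 < ξ P

/-- a representation on few monomial primes -/
structure Vx (s : Fin c → K) (y : Fin ρ → K) (T : Set (Pl K)) (Q : Pl K) (ξ : Pl K → ℝ)
    (D : Finset (Pl K)) : Prop where
  rep : Rep s y T Q ξ
  card : D.card ≤ c + ρ
  ray : ∀ P, ξ P ≠ 0 → Mv s P → P ∈ D

/-- the selection of the monomials -/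
structure Se (s : Fin c → K) (y : Fin ρ → K) (T : Set (Pl K)) (Q : Pl K) (J : Finset (Pg c))
    (a : Pg c → Fin c →₀ ℕ) : Prop where
  hJ : ∀ p ∈ J, Hv s T p
  su : ∀ p, a p ∈ p.l.support
  c0 : ∀ p, Nc p → p ∉ J → wd s p (a p) Q ≤ 0
  em : ∀ p, Nc p → (¬ ∃ P ∈ T, At s P (some p)) →
    wd s p (a p) Q = 0 ∧ ∀ P, Ry s y T P → wd s p (a p) P = 0
  hc : ∀ p, Hv s T p → p ∉ J → wd s p (a p) Q = 0
  hw : ∀ P, Ry s y T P → ∀ H : Finset (Pg c), (∀ p ∈ H, Hv s T p ∧ p ∉ J) →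
    ∑ p ∈ H, wd s p (a p) P ≤ 1

/-- the special pages which carry a prime -/
def Np (s : Fin c → K) (T : Set (Pl K)) (I N : Finset (Pg c)) : Prop :=
  ∀ p, p ∈ N ↔ p ∈ I ∧ Nc p ∧ ∃ P ∈ T, At s P (some p)

end defs

/-- **SF**: Farkas, Shapley and Folkman -/
def SF : Prop := ∀ (c : ℕ) (π α β : Type) (H : Finset π) (S : Finset β) (A : π → Finset α)
  (x : α → Fin c → ℤ) (v : β → Fin c → ℤ) (o : π → β → ℤ),
    (∀ p ∈ H, ∀ a ∈ A p, ∀ r ∈ S, o p r ≤ ∑ i, x a i * v r i) →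
    (∀ ω : β → ℕ, ∃ a : π → α, (∀ p ∈ H, a p ∈ A p) ∧
      2 * ∑ p ∈ H, ∑ r ∈ S, ω r * (∑ i, x (a p) i * v r i - o p r) ≤ 3 * ∑ r ∈ S, (ω r : ℤ)) →
    ∃ (a : π → α) (E : Finset π), E.card ≤ c ∧ (∀ p ∈ H, a p ∈ A p) ∧
      ∀ r ∈ S, ∀ H' ⊆ H, (∀ p ∈ H', p ∉ E) → ∑ p ∈ H', (∑ i, x (a p) i * v r i - o p r) ≤ 1

/-- **ZM**: pages of mass zero -/
def ZM : Prop := ForA fun _ _ _ _ _ s y T => ∀ Q ξ p, Fm s y (· ∈ T) id → Rep s y T Q ξ → Nc p →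
  (∃ a ∈ p.l.support, wd s p a Q ≤ 0) ∧ ((∀ P, At s P (some p) → ξ P = 0) →
    (∀ a, (∀ P, ξ P ≠ 0 → Mv s P → wd s p a P = 0) → wd s p a Q = 0) ∧
    ∃ a ∈ p.l.support, ∀ P, ξ P ≠ 0 → Mv s P → wd s p a P = 0)

/-- **VTX**: Caratheodory on the monomial primes -/
def VTX : Prop := ForA fun _ _ _ _ _ s y T => ∀ Q ξ, Fm s y (· ∈ T) id → Rep s y T Q ξ →
  ∃ ξ' D, Vx s y T Q ξ' D

/-- **HVY**: few heavy pages have a positive mass -/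
def HVY : Prop := ∀ d q : ℕ, ∃ C : ℕ, ForA fun _ _ _ c _ s y T => ∀ ε G κ Q ξ ξ' I D,
  St d q ε s y T G κ Q ξ I → Vx s y T Q ξ' D → ∃ J : Finset (Pg c), J.card ≤ C ∧
    ∀ p, Hv s T p → p ∉ J → ∀ P, At s P (some p) → ξ' P = 0

/-- **LPI**: the inequality at the monomial places -/
def LPI : Prop := ForA fun K _ _ c _ s y T => ∀ d q ε G κ Q ξ I (H : Finset (Pg c))
  (S : Finset (Pl K)) (ω : Pl K → ℕ), St d q ε s y T G κ Q ξ I → (∀ p ∈ H, Hv s T p) →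
    (∀ P ∈ S, Ry s y T P) → ∃ a : Pg c → Fin c →₀ ℕ, (∀ p ∈ H, a p ∈ p.l.support) ∧
      2 * ∑ p ∈ H, ∑ P ∈ S, ω P * wd s p (a p) P ≤ 3 * ∑ P ∈ S, (ω P : ℤ)

/-- **SEL**: the selection exists -/
def SEL : Prop := ∀ d q : ℕ, ∃ C : ℕ, ForA fun _ _ _ c _ s y T => ∀ ε G κ Q ξ I,
  St d q ε s y T G κ Q ξ I → ∃ ξ' D, ∃ (J : Finset (Pg c)), ∃ a,
    Vx s y T Q ξ' D ∧ J.card ≤ C ∧ Se s y T Q J a

/-- **DEC**: a section gives a monomial section -/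
def DEC : Prop := ForA fun K _ _ _ _ s y T => ∀ d q ε G κ Q ξ I J a N (m : ℕ) (X : Set (Pl K)),
  St d q ε s y T G κ Q ξ I → Se s y T Q J a → Np s T I N → (∀ P ∈ X, Ry s y T P) →
    Sec q m (cz s y) (T \ X) (tot G) κ Q →
    ∃ v u n, (∀ P ∈ T \ X, m * κ P ≤ P.ord (mo s y a N v u n)) ∧
      Q.ord (tot G ^ m * mo s y a N v u n) < q * m * (cz s y Q + 1)

/-- **ORM**: the orders of the monomial sections -/
def ORM : Prop := ForR fun _ _ K _ _ s y => ∀ a N v u n, (∀ p ∈ N, Nc p) →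
  mo s y a N v u n ≠ 0 ∧
    (∀ P : Pl K, P.ord (mo s y a N v u n) =
      ∑ j, v j * P.ord (y j) + dt s P u - ∑ p ∈ N, n p * wd s p (a p) P) ∧
    (∀ P : Pl K, ∀ p ∈ N, At s P (some p) →
      P.ord (mo s y a N v u n) = mu s P (some p) * n p + ∑ j, v j * P.ord (y j)) ∧
    (∀ (P : Pl K) p, Nc p → p ∉ N → At s P (some p) →
      P.ord (mo s y a N v u n) = ∑ j, v j * P.ord (y j)) ∧
    ∀ P : Pl K, Tv s y P → P.ord (mo s y a N v u n) = 0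

/-- **FIN**: Helly over the monomial primes -/
def FIN : Prop := ∀ (C d q : ℕ) (ε : ℝ), 0 < q → 0 < ε → ∃ m : ℕ, 2 ≤ m ∧
  ForA fun _ _ _ c _ s y T => ∀ G κ Q ξ ξ' I D (J : Finset (Pg c)) a,
    St d q ε s y T G κ Q ξ I → Vx s y T Q ξ' D → J.card ≤ C → Se s y T Q J a →
    Sec q m (cz s y) T (tot G) κ Q

/-- **PQ**: the theorem at one place -/
def PQ : Prop := ∀ (d q : ℕ) (ε : ℝ), 0 < q → 0 < ε → ∃ m : ℕ, 2 ≤ m ∧
  ForA fun K _ _ _ _ s y T => ∀ g κ (Q : Pl K), Pk d q ε s y T g κ →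
    (∀ a : K, a ≠ 0 → (∀ P ∈ T, 0 ≤ P.ord a) → 0 ≤ Q.ord a) → Sec q m (cz s y) T g κ Q

/-- **LPR** -/
def LPR : Prop := ZM → LPI

/-- **SER** -/
def SER : Prop := SF → ZM → VTX → HVY → LPI → SEL

/-- **FIR** -/
def FIR : Prop := DEC → ORM → FIN

/-- the reduction to the state -/
theorem pqr (sel : SEL) (fin : FIN) : PQ := by
  intro d q ε hq hε
  obtain ⟨C, hC⟩ := sel d q
  obtain ⟨m, m2, H⟩ := fin C d q ε hq hε
  refine ⟨m, m2, fun K _ _ c ρ s y T g κ Q pk ov => ?_⟩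
  obtain ⟨G, I, rfl, o⟩ := Tl.ord85 K c ρ s y T d q ε g κ pk
  obtain ⟨X, χ, ξ, Xf, XK, χ0, χT, χX, χQ, rep, pos⟩ := Tl.gt52 K c ρ s y T G κ I Q pk.fm o ov
  have st : St d q ε s y (T \ X) G κ Q ξ I := ⟨hε, hq,
    Tl.drp47 K c ρ s y T d q ε _ κ X pk Xf fun P h => (XK h).2.1,
    ⟨o.hg, fun p hp => let ⟨P, a, b⟩ := o.ex p hp; ⟨P, ⟨a, fun h => (XK h).2.2 p hp b⟩, b⟩,
      ⟨o.od.co, fun P h => o.od.od P h.1⟩, fun P h => o.y0 P h.1, fun P h => o.g0 P h.1⟩, rep, pos⟩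
  obtain ⟨ξ', D, J, a, vx, cJ, se⟩ := hC K c ρ s y _ ε G κ Q ξ I st
  exact (Wc.rpr65 K q _ _ T _ κ Q pk.g0).1 X χ Xf χ0 χT χX χQ
    (H K c ρ s y _ G κ Q ξ ξ' I D J a st vx cJ se)

theorem pq_of (sf : SF) (zm : ZM) (vtx : VTX) (hvy : HVY) (lpr : LPR) (ser : SER) (dec : DEC)
    (orm : ORM) (fir : FIR) : PQ :=
  pqr (ser sf zm vtx hvy (lpr zm)) (fir dec orm)

end Vale.Agent.P283R.Tz
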