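import Vale.Agent.P283R.Tz.St
import Vale.Agent.P283R.Tz.Sel41

/-!
# P283R, block TY: the row of Farkas, Shapley and Folkman
-/

open Finset

namespace Vale.Agent.P283R.Tz

theorem sfr24 : SF := by
  classical
  intro c π α β H S A x v o ho h
  obtain ⟨E, -, cE, a, ha, k⟩ := S41.sel' H A x S v o ho h
  refine ⟨a, E, cE, ha, fun r hr H' s n => (sum_le_sum_of_subset_of_nonneg
    (fun p hp => mem_sdiff.2 ⟨s hp, n p hp⟩) fun p hp _ => ?_).trans (k r hr)⟩
  exact sub_nonneg.2 (ho p (mem_sdiff.1 hp).1 _ (ha p (mem_sdiff.1 hp).1) r hr)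

end Vale.Agent.P283R.Tz
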