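import Vale.Agent.P283R.Tz.St

/-!
# P283R, block TY: the row ORM
-/

set_option linter.all false

open Set

noncomputable section

namespace Vale.Agent.P283R.Tz

open Vale.Agent.P287D Vale.Agent.P283M Vale.Agent.P297Z Cx Cy
open Vale.Agent.P283R.To (mon mon_ne ord_mon)
open Pq (Tv At lam mu fr Pg od)
open Tb (dt)

/-- **ORM** -/
theorem orm12 : ORM := by
  intro c ρ K _ _ s y h a N v u n hN
  classical
  have hs := Pq.F60.ind_s h.ind
  have s0 := hs.ne_zero
  have y0 := Pq.F60.y_ne h.ind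
  have l0 := Pq.F60.lam_ne hs
  have f0 : ∀ p, (lam s p / mon s fun i => a p i) ≠ 0 := fun p => div_ne_zero (l0 p) (mon_ne s0 _)
  have p0 : ∏ p ∈ N, (lam s p / mon s fun i => a p i) ^ n p ≠ 0 :=
    Finset.prod_ne_zero_iff.2 fun p _ => zpow_ne_zero _ (f0 p)
  have o : ∀ P : Pl K, P.ord (mo s y a N v u n) =
      ∑ j, v j * P.ord (y j) + dt s P u - ∑ p ∈ N, n p * wd s p (a p) P := fun P => by
    rw [mo, Pl.ord_mul _ (mul_ne_zero (mon_ne y0 _) (mon_ne s0 _)) p0,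
      Pl.ord_mul _ (mon_ne y0 _) (mon_ne s0 _), P.ord_prod _ fun p _ => zpow_ne_zero _ (f0 p),
      ord_mon P y0, ord_mon P s0, sub_eq_add_neg, ← Finset.sum_neg_distrib]
    congr 1
    refine Finset.sum_congr rfl fun p _ => ?_
    rw [Pl.ord_zpow, Pl.ord_div _ (l0 p) (mon_ne s0 _), ord_mon P s0, wd, dt]
    ring
  have ne : ∀ {P : Pl K} {p p' : Pg c}, At s P (some p') → p ≠ p' → P.ord (lam s p) = 0 :=
    fun h e => by
      rw [h.2]
      simp [od, Finsupp.single_eq_of_ne e.symm]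
  have z : ∀ {P : Pl K}, (∀ i, P.ord (s i) = 0) → ∀ m, dt s P m = 0 := fun k m => by simp [dt, k]
  refine ⟨mul_ne_zero (mul_ne_zero (mon_ne y0 _) (mon_ne s0 _)) p0, o, fun P p hp k => ?_,
    fun P p c hp k => ?_, fun P t => ?_⟩
  · have z := z (Tb.C85.s0 h (hN p hp) k)
    rw [o, z, Finset.sum_eq_single p (fun p' _ e => by rw [wd, z, ne k e]; simp) fun e =>
      (e hp).elim, wd, z, mu]
    ring
  · have z := z (Tb.C85.s0 h c k)
    have w : ∑ p ∈ N, n p * wd s p (a p) P = 0 := Finset.sum_eq_zero fun p' b => by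
      rw [wd, z, ne k fun e => hp (e ▸ b)]; simp
    rw [o, z, w]
    ring
  · have a1 : ∀ i, P.ord (s i) = 0 := fun i => t 0 _
      ⟨s i, IntermediateField.subset_adjoin _ _ ⟨i, rfl⟩, by simp [mon]⟩ (s0 i)
    have a2 : ∀ j, P.ord (y j) = 0 := fun j => t _ _ (Pq.M29.mem_hm s y j) (y0 j)
    have a3 : ∀ p, P.ord (lam s p) = 0 := fun p => t 0 _ (Pq.F60.lam_mem p) (l0 p)
    simp [o, wd, z a1, a2, a3]

end Vale.Agent.P283R.Tz
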