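import Vale.Agent.P283R.Tz.Car25

/-!
# P283R, block TY: few pages with mass are not reduced
-/

open Set

noncomputable section

namespace Vale.Agent.P283R.Tz.C25

open Vale.Agent.P287D Vale.Agent.P283M Vale.Agent.P297Z
open Pq (Hm Hg tot At lam mu fr Pg)
open Wc (Ho Kt Rep)
open Tb (dt Mv Ax Cm)

variable {K : Type} [Field K] [Algebra ℂ K] {c ρ d q : ℕ} {s : Fin c → K} {y : Fin ρ → K}
  {T : Set (Pl K)} {Q : Pl K} {ξ ζ : Pl K → ℝ} {ε : ℝ} {G : (Fin ρ → ℤ) →₀ K} {κ : Pl K → ℤ}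

/-- the coordinate pages -/
theorem coo (c : ℕ) : ∃ J : Finset (Pg c), J.card ≤ c ∧
    ∀ p, p ∈ J ↔ ∃ i : Fin c, p.l ∣ MvPolynomial.X i := by
  classical
  obtain ⟨f, hf⟩ : ∃ f : Fin c → Option (Pg c), ∀ i (p : Pg c),
      f i = some p ↔ p.l ∣ MvPolynomial.X i := by
    refine ⟨fun i => if h : ∃ p : Pg c, p.l ∣ MvPolynomial.X i then some h.choose else none,
      fun i p => ⟨fun h => ?_, fun h => ?_⟩⟩
    · by_cases e : ∃ p : Pg c, p.l ∣ MvPolynomial.X i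
      · simp only [dif_pos e] at h
        exact Option.some.inj h ▸ e.choose_spec
      · simp [dif_neg e] at h
    · have e : ∃ p : Pg c, p.l ∣ MvPolynomial.X i := ⟨p, h⟩
      have x := (MvPolynomial.X_prime (R := ℂ) (i := i)).irreducible
      simp only [dif_pos e]
      exact congrArg some ((Pq.pol c).2.1 _ _ (e.choose_spec.trans
        (((Pq.pol c).1 p).1.irreducible.dvd_symm x h)))
  refine ⟨(Finset.univ.image f).eraseNone, (Finset.card_eraseNone_le _).trans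
    (Finset.card_image_le.trans (by simp)), fun p => ?_⟩
  simp only [Finset.mem_eraseNone, Finset.mem_image, Finset.mem_univ, true_and, hf]

/-- the pages with mass outside of `J` are reduced -/
theorem jz (pk : Tl.Pk d q ε s y T (tot G) κ) (ε0 : 0 < ε) (hq : 0 < q) (hG : Hg s y G)
    (rp : Rep s y T Q ζ) (t : Finset (Pl K)) (ht : ∀ P, ζ P ≠ 0 → Mv s P → P ∈ t) :
    ∃ J : Finset (Pg c), J.card ≤ q * (c + t.card) * (ρ + 2) ∧ ∀ p ∉ J,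
      (∃ P, ζ P ≠ 0 ∧ Ax s P p) → ∀ E ∈ T, At s E (some p) → mu s E (some p) = 1 := by
  classical
  obtain ⟨u, -, J, h1, h2⟩ := Tb.C85.hel (Q := Q) (ζ := ζ)
    (Is := t.filter fun P => Mv s P ∧ ζ P ≠ 0) Tb.gp0 (Tl.f1_85 pk.fm) ε0.le hq hG pk.g0 pk.hw pk.fin
    (fun E a => by
      have := pk.eff E a
      omega) ⟨rp.nn, rp.sup, fun u x hx x0 => rp.eq x ⟨x0, u, hx⟩,
      fun P a => (Finset.mem_filter.1 a).2,
      fun a h E z m => h E (Finset.mem_filter.2 ⟨ht E z m, m, z⟩)⟩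
  refine ⟨J, h1.trans (Nat.mul_le_mul_right _ (Nat.mul_le_mul_left _ (Nat.add_le_add_left
    (Finset.card_filter_le _ _) _))), fun p hp ⟨P, z, a⟩ E hE b => (h2 E hE p (fun i e => ?_) b
      ⟨P, z, a.1⟩ hp).1⟩
  obtain ⟨-, -, -, -, -, f6, -, -, -, f10, -⟩ := Pq.fac c ρ K s y pk.fm.rat
  obtain ⟨g, hg⟩ := e
  have x := (MvPolynomial.X_prime (R := ℂ) (i := i)).irreducible
  have u1 : IsUnit g := (x.isUnit_or_isUnit hg).resolve_left ((Pq.pol c).1 p).1.not_isUnit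
  have e1 : s i = lam s p * MvPolynomial.aeval s g := by
    rw [lam, ← map_mul, ← hg, MvPolynomial.aeval_X]
  obtain ⟨r, r0, rfl⟩ : ∃ r : ℂ, r ≠ 0 ∧ g = MvPolynomial.C r := by
    obtain ⟨r, hr, e⟩ := MvPolynomial.isUnit_iff_eq_C_of_isReduced.1 u1
    exact ⟨r, hr.ne_zero, e⟩
  have e2 := a.2 i
  rw [e1, MvPolynomial.aeval_C, mul_comm, ← Algebra.smul_def, Pl.ord_smul _ r0] at e2
  exact a.1.1.ne' e2

/-- **steps (1) and (4)**: the weights inside the support, the rays `t`, the pages `J` -/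
theorem step (pk : Tl.Pk d q ε s y T (tot G) κ) (ε0 : 0 < ε) (hq : 0 < q) (hG : Hg s y G)
    (rp : Rep s y T Q ξ) : ∃ (ζ : Pl K → ℝ) (t : Finset (Pl K)) (J : Finset (Pg c)),
      Rep s y T Q ζ ∧ (∀ P, ζ P ≠ 0 → ξ P ≠ 0) ∧ t.card ≤ d ∧
      (∀ P, P ∈ t ↔ ζ P ≠ 0 ∧ Mv s P) ∧ J.card ≤ q * (2 * d) * (d + 2) ∧ ∀ p ∉ J,
        (∃ P, ζ P ≠ 0 ∧ Ax s P p) → ∀ E ∈ T, At s E (some p) → mu s E (some p) = 1 := by
  classical
  obtain ⟨J₀, c0, h0⟩ := coo c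
  obtain ⟨ζ, t, r, ct, ht, -, sup⟩ := car pk.fm J₀ (fun i p h => (h0 p).2 ⟨i, h⟩) rp
  have hd := pk.dim
  obtain ⟨-, d2, d3, -⟩ := Tb.dic80 c ρ K s y pk.fm.rat
  have k : ∀ P, ζ P ≠ 0 → Mv s P → P ∈ t := fun P z m => ht P ⟨(r.sup P z).1, (r.sup P z).2,
    fun p hp a => a.1.ne' (d3 P m (d2 P p a fun i e => hp ((h0 p).2 ⟨i, e⟩)).2 p)⟩ z
  obtain ⟨J, cJ, hJ⟩ := jz pk ε0 hq hG r t k
  exact ⟨ζ, t.filter fun P => ζ P ≠ 0 ∧ Mv s P, J, r, sup,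
    (Finset.card_filter_le _ _).trans (by omega), fun P => ⟨fun a => (Finset.mem_filter.1 a).2,
      fun a => Finset.mem_filter.2 ⟨k P a.1 a.2, a⟩⟩,
    cJ.trans (Nat.mul_le_mul (Nat.mul_le_mul_left _ (by omega)) (by omega)), hJ⟩

end Vale.Agent.P283R.Tz.C25
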