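import Vale.Agent.P283R.Tz.St
import Vale.Agent.P283R.Tz.Jz25

/-!
# P283R, block TY: pages of mass zero, Caratheodory, heavy pages with mass
-/

open Set

noncomputable section

namespace Vale.Agent.P283R.Tz

open Vale.Agent.P287D Vale.Agent.P283M

/-- **ZM** -/
theorem zm25 : ZM := fun K _ _ c ρ s y T Q ξ p fm rp _ => by
  obtain ⟨a, h1, h2⟩ := (Tb.dic80 c ρ K s y fm.rat).1 Q p.l ((Pq.pol c).1 p).1.ne_zero
  refine ⟨⟨a, h1, sub_nonpos.2 h2⟩, fun h => ⟨fun a k => ?_, ?_⟩⟩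
  · exact sub_eq_zero.2 (C25.cost fm rp p (fun P z x => z (h P x.1)) a
      fun P z m => (sub_eq_zero.1 (k P z m)).symm).symm
  · obtain ⟨a, b, -, e⟩ := C25.emp fm rp p fun P z x => z (h P x.1)
    exact ⟨a, b, fun P z _ => sub_eq_zero.2 (e P z).symm⟩

/-- **VTX** -/
theorem vtx25 : VTX := fun K _ _ c ρ s y T Q ξ fm rp => by
  obtain ⟨J₀, c0, h0⟩ := C25.coo c
  obtain ⟨ζ, t, r, ct, ht, -, -⟩ := C25.car fm J₀ (fun i p h => (h0 p).2 ⟨i, h⟩) rp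
  obtain ⟨-, d2, d3, -⟩ := Tb.dic80 c ρ K s y fm.rat
  exact ⟨ζ, t, r, by omega, fun P z m => ht P ⟨(r.sup P z).1, (r.sup P z).2,
    fun p hp a => a.1.ne' (d3 P m (d2 P p a fun i e => hp ((h0 p).2 ⟨i, e⟩)).2 p)⟩ z⟩

/-- **HVY** -/
theorem hvy25 : HVY := fun d q => ⟨q * (2 * d) * (d + 2),
  fun K _ _ c ρ s y T ε G κ Q ξ ξ' I D st vx => by
    obtain ⟨J, cJ, hJ⟩ := C25.jz st.pk st.e0 st.q0 st.od.hg vx.rep D vx.ray
    have hd := st.pk.dim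
    have := vx.card
    refine ⟨J, cJ.trans (Nat.mul_le_mul (Nat.mul_le_mul_left _ (by omega)) (by omega)),
      fun p ⟨n, E, hE, a, m⟩ hp P b => by_contra fun z => ?_⟩
    have := hJ p hp ⟨P, z, (Tb.dic80 c ρ K s y st.pk.fm.rat).2.1 P p b n⟩ E hE a
    omega⟩

end Vale.Agent.P283R.Tz
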