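import Vale.Agent.P283R.Tz.St

/-!
# P283R, block TY: the orders of the monomial sections
-/

open Set

noncomputable section

namespace Vale.Agent.P283R.Tz

open Vale.Agent.P287D Vale.Agent.P283M Cx Cy
open Vale.Agent.P283R.To (mon mon_ne ord_mon)
open Pq (Tv At lam mu fr Pg)
open Tb (dt)
open Tb.C85 (Nc s0 at_ne)

/-- **ORM** -/
theorem orm27 : ORM := fun c ρ K _ _ s y h a N v u n hN => by
  classical
  have i := Pq.F60.ind_s h.ind
  have z : ∀ i, s i ≠ 0 := i.ne_zero
  have w := Pq.F60.y_ne h.ind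
  have l : ∀ p, (lam s p / mon s fun i => a p i) ≠ 0 := fun p =>
    div_ne_zero (Pq.F60.lam_ne i p) (mon_ne z _)
  have l' : ∏ p ∈ N, (lam s p / mon s fun i => a p i) ^ n p ≠ 0 :=
    Finset.prod_ne_zero_iff.2 fun p _ => zpow_ne_zero _ (l p)
  have m0 := mul_ne_zero (mon_ne w v) (mon_ne z u)
  have k : ∀ P : Pl K, P.ord (mo s y a N v u n) =
      ∑ j, v j * P.ord (y j) + dt s P u - ∑ p ∈ N, n p * wd s p (a p) P := fun P => by
    rw [mo, P.ord_mul m0 l', P.ord_mul (mon_ne w v) (mon_ne z u), ord_mon P w, ord_mon P z,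
      P.ord_prod _ fun p _ => zpow_ne_zero _ (l p), sub_eq_add_neg, ← Finset.sum_neg_distrib]
    refine congrArg₂ _ rfl (Finset.sum_congr rfl fun p _ => ?_)
    rw [P297Z.Pl.ord_zpow, P.ord_div (Pq.F60.lam_ne i p) (mon_ne z _), ord_mon P z, wd, dt]
    ring
  have d0 : ∀ P : Pl K, (∀ i, P.ord (s i) = 0) → ∀ x, dt s P x = 0 := fun P e x => by
    simp [dt, e]
  refine ⟨mul_ne_zero m0 l', k, fun P p hp t => ?_, fun P p hp np t => ?_, fun P t => ?_⟩
  · have e := d0 P (s0 h (hN p hp) t)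
    rw [k, e, Finset.sum_eq_single_of_mem p hp fun p' _ q => by
      rw [wd, e, at_ne t q, sub_zero, mul_zero], wd, e, mu]
    ring
  · have e := d0 P (s0 h hp t)
    rw [k, e, Finset.sum_eq_zero (s := N) fun p' q => by
      rw [wd, e, at_ne t (ne_of_mem_of_not_mem q np), sub_zero, mul_zero], add_zero, sub_zero]
  · have f : ∀ i, s i ∈ IntermediateField.adjoin ℂ (range s) := fun i =>
      IntermediateField.subset_adjoin _ _ (mem_range_self i)
    refine t v _ ⟨mon s u * ∏ p ∈ N, (lam s p / mon s fun i => a p i) ^ n p,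
      mul_mem (prod_mem fun i _ => zpow_mem (f i) _) (prod_mem fun p _ => zpow_mem (div_mem
        (Pq.U60.aev_mem p.l) (prod_mem fun i _ => zpow_mem (f i) _)) _), ?_⟩ (mul_ne_zero m0 l')
    rw [mo]
    ring

end Vale.Agent.P283R.Tz
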