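import Vale.Agent.P283R.Tz.St
import Vale.Agent.P283R.Tz.Sel41
import Vale.Agent.P283R.Tb.Mco85

/-!
# P283R, block TY: the rows SF and SER
-/

set_option linter.all false

open Set

noncomputable section

namespace Vale.Agent.P283R.Tz

open Vale.Agent.P287D Vale.Agent.P283M
open Pq (Tv At cz lam mu fr tot Pg)
open Wc (Kt Rep)
open Tb (dt Mv)
open Tb.C85 (Nc)

/-- **SF** -/
theorem sf41 : SF := by
  intro c π α β H S A x v o ho h
  classical
  obtain ⟨E, -, cE, a, ha, k⟩ := S41.sel' H A x S v o ho h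
  refine ⟨a, E, cE, ha, fun r hr H' sub hE => le_trans ?_ (k r hr)⟩
  refine Finset.sum_le_sum_of_subset_of_nonneg (fun p hp => ?_) fun p hp _ => ?_
  · simpa using And.intro (sub hp) (hE p hp)
  · have : p ∈ H := by
      simp only [Finset.mem_sdiff] at hp
      exact hp.1
    exact sub_nonneg.2 (ho p this _ (ha p this) r hr)

/-- **SER** -/
theorem ser41 : SER := by
  intro sf zm vtx hvy lpi d q
  obtain ⟨C, hC⟩ := hvy d q
  refine ⟨C + d + d, fun K _ _ c ρ s y T ε G κ Q ξ I st => ?_⟩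
  classical
  have fm := st.pk.fm
  have dim := st.pk.dim
  obtain ⟨ξ', D, vx⟩ := vtx K c ρ s y T Q ξ fm st.rep
  obtain ⟨J₁, cJ, hJ⟩ := hC K c ρ s y T ε G κ Q ξ ξ' I D st vx
  have hI : ∀ p, Hv s T p → p ∈ I := fun p ⟨_, P, a, b, e⟩ => by
    by_contra n
    have := (st.od.od.od P a p n b).1
    omega
  have rk : ∀ P, Ry s y T P → P ∈ Kt s y T I := fun P h => ⟨h.1, h.2.1, fun p n b =>
    Tb.C85.not_mn fm.rat b (fun i x => n (st.od.od.co i p x)) h.2.2⟩
  have fin : {P | Ry s y T P}.Finite := (Tl.car52 K c ρ s y T I fm).1.subset rk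
  let H := I.filter (Hv s T)
  have mH : ∀ p, p ∈ H ↔ Hv s T p := fun p =>
    Finset.mem_filter.trans ⟨And.right, fun h => ⟨hI p h, h⟩⟩
  have mS : ∀ P, P ∈ fin.toFinset ↔ Ry s y T P := fun P => fin.mem_toFinset
  have w0 : ∀ p, ∀ a ∈ p.l.support, ∀ P, Mv s P → 0 ≤ wd s p a P := fun p a ha P h =>
    sub_nonneg.2 (h p.l a ha)
  obtain ⟨a₁, E, cE, su, k⟩ := sf c (Pg c) (Fin c →₀ ℕ) (Pl K) H fin.toFinset
    (fun p => p.l.support) (fun a i => a i) (fun P i => P.ord (s i)) (fun p P => P.ord (lam s p))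
    (fun p _ a ha P hP => ((mS P).1 hP).2.2 p.l a ha) fun ω =>
      lpi K c ρ s y T d q ε G κ Q ξ I H _ ω st (fun p => (mH p).1) fun P => (mS P).1
  have k' : ∀ P, Ry s y T P → ∀ H' ⊆ H, (∀ p ∈ H', p ∉ E) → ∑ p ∈ H', wd s p (a₁ p) P ≤ 1 :=
    fun P h => k P ((mS P).2 h)
  let B : Pl K → Finset (Pg c) := fun P =>
    H.filter fun p => p ∉ E ∧ Ry s y T P ∧ wd s p (a₁ p) P ≠ 0
  have cB : ∀ P, (B P).card ≤ 1 := fun P => by
    by_cases h : Ry s y T P
    · have a1 := k' P h (B P) (Finset.filter_subset _ _) fun p hp => (Finset.mem_filter.1 hp).2.1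
      have a2 : ∑ _p ∈ B P, (1 : ℤ) ≤ ∑ p ∈ B P, wd s p (a₁ p) P :=
        Finset.sum_le_sum fun p hp => by
          have b := Finset.mem_filter.1 hp
          have := w0 p _ (su p b.1) P h.2.2
          have := b.2.2.2
          omega
      simp only [Finset.sum_const, nsmul_eq_mul, mul_one] at a2
      omega
    · rw [show B P = ∅ from Finset.filter_false_of_mem fun p _ z => h z.2.1]
      exact zero_le_one
  have ch : ∀ p : Pg c, ∃ a ∈ p.l.support, (Hv s T p → a = a₁ p) ∧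
      (Nc p → ¬ Hv s T p → wd s p a Q ≤ 0) ∧ (Nc p → (¬ ∃ P ∈ T, At s P (some p)) →
        wd s p a Q = 0 ∧ ∀ P, Ry s y T P → wd s p a P = 0) := fun p => by
    by_cases h : Hv s T p
    · exact ⟨a₁ p, su p ((mH p).2 h), fun _ => rfl, fun _ n => (n h).elim,
        fun _ n => (n (h.2.imp fun P z => ⟨z.1, z.2.1⟩)).elim⟩
    by_cases n : Nc p
    · obtain ⟨⟨a, ha, e⟩, z⟩ := zm K c ρ s y T Q ξ p fm st.rep n
      by_cases t : ∃ P ∈ T, At s P (some p)
      · exact ⟨a, ha, fun x => (h x).elim, fun _ _ => e, fun _ x => (x t).elim⟩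
      · obtain ⟨z1, b, hb, z2⟩ := z fun P x => by
          by_contra u
          exact t ⟨P, (st.rep.sup P u).1, x⟩
        exact ⟨b, hb, fun x => (h x).elim, fun _ _ => (z1 b z2).le, fun _ _ =>
          ⟨z1 b z2, fun P x => z2 P (st.pos P (rk P x)).ne' x.2.2⟩⟩
    · obtain ⟨a, ha⟩ := MvPolynomial.support_nonempty.2 ((Pq.pol c).1 p).1.ne_zero
      exact ⟨a, ha, fun x => (h x).elim, fun x => (n x).elim, fun x => (n x).elim⟩
  choose a h1 h2 h3 h4 using ch
  have nJ : ∀ p, Hv s T p → p ∉ (J₁ ∪ E ∪ D.biUnion B).filter (Hv s T) →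
      p ∉ J₁ ∧ p ∉ E ∧ ∀ P ∈ D, p ∉ B P := fun p h n => by
    simpa [h, and_assoc] using n
  have hc : ∀ p, Hv s T p → p ∉ (J₁ ∪ E ∪ D.biUnion B).filter (Hv s T) → wd s p (a p) Q = 0 :=
    fun p h n => by
      obtain ⟨n1, n2, n3⟩ := nJ p h n
      refine ((zm K c ρ s y T Q ξ' p fm vx.rep h.1).2 (hJ p h n1)).1 _ fun P x m => ?_
      rw [h2 p h]
      by_contra u
      exact n3 P (vx.ray P x m) (Finset.mem_filter.2 ⟨(mH p).2 h, n2,
        ⟨(vx.rep.sup P x).1, (vx.rep.sup P x).2, m⟩, u⟩)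
  refine ⟨ξ', D, (J₁ ∪ E ∪ D.biUnion B).filter (Hv s T), a, vx, ?_,
    fun p hp => (Finset.mem_filter.1 hp).2, h1, fun p n z => ?_, h4, hc, fun P x H' hH => ?_⟩
  · have a1 := Finset.card_filter_le (J₁ ∪ E ∪ D.biUnion B) (Hv s T)
    have a2 := Finset.card_union_le (J₁ ∪ E) (D.biUnion B)
    have a3 := Finset.card_union_le J₁ E
    have a4 : (D.biUnion B).card ≤ D.card * 1 := Finset.card_biUnion_le_card_mul _ _ _
      fun P _ => cB P
    have a5 := vx.card
    omega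
  · by_cases h : Hv s T p
    · exact (hc p h z).le
    · exact h3 p n h
  · rw [Finset.sum_congr rfl fun p hp => by rw [h2 p (hH p hp).1]]
    exact k' P x H' (fun p hp => (mH p).2 (hH p hp).1) fun p hp =>
      (nJ p (hH p hp).1 (hH p hp).2).2.1

end Vale.Agent.P283R.Tz
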