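import Vale.Agent.P283R.Wd.Hz66
import Vale.Agent.P283R.To.Lin

/-!
# P283R, block TY: the lemmas of Farkas and of Shapley and Folkman
-/

open Finset

namespace Vale.Agent.P283R.Tz

variable {π R : Type} [Fintype R] {c : ℕ}

/-- the relaxed problem has a solution -/
theorem S24.rel {ι κ : Type} [Fintype ι] [Fintype κ] [DecidableEq κ] (f : ι → κ) (W : ι → R → ℤ)
    (b : R → ℤ) (h : ∀ w : R → ℕ, ∃ τ : κ → ι, (∀ p, f (τ p) = p) ∧
      ∑ r, w r * ∑ p, W (τ p) r ≤ ∑ r, w r * b r) :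
    ∃ (x : ι → ℚ) (t : ℚ), 0 < t ∧ (∀ i, 0 ≤ x i) ∧
      (∀ p, ∑ i, x i * (if f i = p then 1 else 0) = t) ∧ ∀ r, ∑ i, x i * W i r ≤ t * b r := by
  classical
  let M : (ι ⊕ R) ⊕ Unit → R ⊕ κ → ℤ := Sum.elim
    (Sum.elim (fun i => Sum.elim (W i) fun p => if f i = p then -1 else 0)
      fun r => Sum.elim (fun r' => if r = r' then 1 else 0) 0)
    fun _ => Sum.elim (fun r => -b r) 1
  by_contra hn
  obtain ⟨u, hu⟩ := To.farkas_int' M (fun i => i = .inr ()) fun x x0 e i hi => by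
    subst hi
    refine by_contra fun z => hn ⟨fun i => x (.inl (.inl i)), x (.inr ()), (x0 _).lt_of_ne' z,
      fun i => x0 _, fun p => ?_, fun r => ?_⟩
    · have := e (.inr p)
      simp only [M, Fintype.sum_sum_type, Sum.elim_inl, Sum.elim_inr, Pi.zero_apply, Pi.one_apply,
        Int.cast_zero, mul_zero, sum_const_zero, add_zero, Fintype.sum_unique, Int.cast_one,
        mul_one, Int.cast_ite, Int.cast_neg, mul_ite, mul_neg] at this
      rw [← add_eq_zero_iff_neg_eq.1 this, ← sum_neg_distrib]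
      exact sum_congr rfl fun i _ => by split_ifs <;> simp
    · have := e (.inl r)
      simp only [M, Fintype.sum_sum_type, Sum.elim_inl, Sum.elim_inr, Fintype.sum_unique,
        Int.cast_ite, Int.cast_one, Int.cast_zero, mul_ite, mul_one, mul_zero, sum_ite_eq',
        mem_univ, if_true, Int.cast_neg, mul_neg] at this
      linarith [x0 (.inl (.inr r))]
  have u0 : ∀ r, 0 ≤ u (.inl r) := fun r => by
    simpa [M, Fintype.sum_sum_type] using (hu (.inl (.inr r))).1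
  have u1 : ∀ i, u (.inr (f i)) ≤ ∑ r, W i r * u (.inl r) := fun i => by
    simpa [M, Fintype.sum_sum_type] using (hu (.inl (.inl i))).1
  have u2 : ∑ r, b r * u (.inl r) < ∑ p, u (.inr p) := by
    simpa [M, Fintype.sum_sum_type] using (hu (.inr ())).2 rfl
  obtain ⟨τ, t1, t2⟩ := h fun r => (u (.inl r)).toNat
  simp only [Int.toNat_of_nonneg (u0 _), mul_sum] at t2
  rw [sum_comm] at t2
  have := sum_le_sum fun p (_ : p ∈ univ) => (congrArg (fun p => u (.inr p)) (t1 p)).ge.trans (u1 (τ p))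
  simp only [mul_comm (u _)] at t2
  omega

/-- the lemma of Shapley and Folkman -/
theorem S24.sf {ι κ : Type} [Fintype ι] [Fintype κ] [DecidableEq κ] (f : ι → κ)
    (a : ι → Fin c → ℝ) (x : ι → ℝ) {t : ℝ} (t0 : 0 < t) (x0 : 0 ≤ x)
    (h : ∀ p, ∑ i, x i * (if f i = p then 1 else 0) = t) :
    ∃ (z : ι → ℝ) (J : Finset κ) (τ : κ → ι), 0 ≤ z ∧ J.card ≤ c ∧ (∀ p, f (τ p) = p) ∧
      (∀ p ∉ J, z (τ p) = t) ∧ (∀ p, ∑ i, z i * (if f i = p then 1 else 0) = t) ∧
      ∀ j, ∑ i, z i * a i j = ∑ i, x i * a i j := by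
  classical
  obtain ⟨z, z0, z1, z2⟩ := Wd.Z66.car
    (fun i => (Sum.elim (a i) fun p => if f i = p then 1 else 0 : Fin c ⊕ κ → ℝ)) _ x le_rfl x0
  have e : ∀ p, ∑ i, z i * (if f i = p then 1 else 0) = t := fun p => by
    rw [← h p]
    simpa only [Finset.sum_apply, Pi.smul_apply, Sum.elim_inr, smul_eq_mul] using congrFun z1 (.inr p)
  let S := univ.filter fun i => z i ≠ 0
  let F : κ → Finset ι := fun p => S.filter fun i => f i = p
  have eF : ∀ p, ∑ i ∈ F p, z i = t := fun p => by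
    rw [← e p, sum_filter, sum_filter]
    exact sum_congr rfl fun i _ => by by_cases z i = 0 <;> split_ifs <;> simp_all
  have ne : ∀ p, (F p).Nonempty := fun p =>
    nonempty_iff_ne_empty.2 fun k => t0.ne (by rw [← eF p, k, sum_empty])
  choose τ hτ using ne
  refine ⟨z, univ.filter fun p => 2 ≤ (F p).card, τ, z0, ?_, fun p => (mem_filter.1 (hτ p)).2,
    fun p k => ?_, e, fun j => ?_⟩
  · have c1 : S.card = ∑ p, (F p).card := card_eq_sum_card_fiberwise fun i _ => mem_univ (f i)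
    have c2 : ∑ p, (1 + if 2 ≤ (F p).card then 1 else 0) ≤ ∑ p, (F p).card :=
      sum_le_sum fun p _ => by
        have := card_pos.2 ⟨_, hτ p⟩
        split_ifs <;> omega
    rw [sum_add_distrib, sum_const, smul_eq_mul, mul_one, card_univ, ← card_filter] at c2
    have c3 : S.card ≤ c + Fintype.card κ := by convert z2 using 1; simp
    omega
  · have : (F p).card ≤ 1 := by simpa [Nat.lt_succ_iff] using k
    rw [← eF p, eq_singleton_iff_unique_mem.2 ⟨hτ p, fun i hi => card_le_one.1 this _ hi _ (hτ p)⟩,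
      sum_singleton]
  · simpa only [Finset.sum_apply, Pi.smul_apply, Sum.elim_inl, smul_eq_mul] using congrFun z1 (.inl j)

/-- outside of `c` pages there are monomials with a small total defect -/
theorem sf24 [DecidableEq π] (H : Finset π) (A : π → Finset (Fin c → ℤ)) (v : R → Fin c → ℤ)
    (o : π → R → ℤ) (ho : ∀ p ∈ H, ∀ a ∈ A p, ∀ r, o p r ≤ a ⬝ᵥ v r) (n b : R → ℤ)
    (n0 : ∀ r, 0 ≤ n r) (h : ∀ w : R → ℕ, ∃ τ : π → Fin c → ℤ, (∀ p ∈ H, τ p ∈ A p) ∧
      ∑ r, w r * (n r * ∑ p ∈ H, (τ p ⬝ᵥ v r - o p r)) ≤ ∑ r, w r * b r) :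
    ∃ J ⊆ H, J.card ≤ c ∧ ∃ τ : π → Fin c → ℤ, (∀ p ∈ H, τ p ∈ A p) ∧
      ∀ r, n r * ∑ p ∈ H \ J, (τ p ⬝ᵥ v r - o p r) ≤ b r := by
  classical
  let W : (Σ p : H, A p) → R → ℤ := fun i r => n r * (i.2.1 ⬝ᵥ v r - o i.1 r)
  obtain ⟨x, t, t0, x0, x1, x2⟩ := S24.rel (fun i : Σ p : H, A p => i.1) W b fun w => by
    obtain ⟨τ, a, e⟩ := h w
    refine ⟨fun p => ⟨p, τ p, a p p.2⟩, fun _ => rfl, le_of_eq_of_le ?_ e⟩
    exact sum_congr rfl fun r _ => by
      rw [← sum_coe_sort H, mul_sum (a := n r)]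
  obtain ⟨z, J, τ, z0, J1, t1, t2, z1, z2⟩ := S24.sf (fun i : Σ p : H, A p => i.1)
    (fun i j => (i.2.1 j : ℝ)) (fun i => x i) (t := t) (by exact_mod_cast t0)
    (fun i => Rat.cast_nonneg.2 (x0 i)) fun p => by
      have := congrArg (Rat.cast : ℚ → ℝ) (x1 p)
      push_cast [apply_ite (Rat.cast : ℚ → ℝ)] at this
      exact this
  have lin : ∀ (y : (Σ p : H, A p) → ℝ), (∀ p, ∑ i, y i * (if i.1 = p then 1 else 0) = t) → ∀ r,
      ∑ i, y i * W i r = n r * (∑ j, (∑ i, y i * i.2.1 j) * v r j - ∑ p : H, (t : ℝ) * o p r) :=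
    fun y hy r => by
      rw [sum_congr rfl fun (p : H) _ => congrArg (· * (o p r : ℝ)) (hy p).symm]
      simp only [sum_mul]
      rw [sum_comm, sum_comm (γ := H), ← sum_sub_distrib, mul_sum]
      refine sum_congr rfl fun i _ => ?_
      simp only [W, dotProduct, mul_ite, ite_mul, mul_one, mul_zero, zero_mul, sum_ite_eq, mem_univ,
        if_true, mul_assoc, ← mul_sum]
      push_cast
      ring
  have W0 : ∀ i r, 0 ≤ W i r := fun i r => mul_nonneg (n0 r) (sub_nonneg.2 (ho _ i.1.2 _ i.2.2 r))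
  refine ⟨J.image (↑), fun p k => ?_, card_image_le.trans J1,
    fun p => if k : p ∈ H then (τ ⟨p, k⟩).2.1 else 0, fun p k => ?_, fun r => ?_⟩
  · obtain ⟨p, -, rfl⟩ := mem_image.1 k
    exact p.2
  · simp only [dif_pos k]
    exact (congrArg (fun q : H => (τ ⟨p, k⟩).2.1 ∈ A q) (t1 ⟨p, k⟩)).mp (τ ⟨p, k⟩).2.2
  · have inj : Function.Injective τ := fun p q e => (t1 p).symm.trans (e ▸ t1 q)
    have k1 : ∑ i, z i * W i r ≤ t * b r := by
      rw [lin z z1]
      simp only [z2]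
      rw [← lin (fun i => x i) fun p => ?_]
      · exact_mod_cast x2 r
      · have := congrArg (Rat.cast : ℚ → ℝ) (x1 p)
        push_cast [apply_ite (Rat.cast : ℚ → ℝ)] at this
        exact this
    have k2 : ∑ i ∈ Jᶜ.image τ, z i * W i r ≤ ∑ i, z i * W i r :=
      sum_le_sum_of_subset_of_nonneg (subset_univ _) fun i _ _ =>
        mul_nonneg (z0 i) (Int.cast_nonneg (W0 i r))
    rw [sum_image fun p _ q _ e => inj e, sum_congr rfl fun p k => by rw [t2 p (mem_compl.1 k)],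
      ← mul_sum] at k2
    have k3 := le_of_mul_le_mul_left (k2.trans k1) (by exact_mod_cast t0)
    have k4 : ∑ p ∈ Jᶜ, W (τ p) r ≤ b r := by exact_mod_cast k3
    refine le_of_eq_of_le ?_ k4
    rw [mul_sum]
    refine (sum_bij (fun p _ => p.1) (fun p k => ?_) (fun p _ q _ e => Subtype.ext e)
      (fun p k => ?_) fun p _ => ?_).symm
    · exact mem_sdiff.2 ⟨p.2, fun m => by
        obtain ⟨q, a, e⟩ := mem_image.1 m
        exact mem_compl.1 k (Subtype.ext e ▸ a)⟩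
    · exact ⟨⟨p, (mem_sdiff.1 k).1⟩, mem_compl.2 fun m =>
        (mem_sdiff.1 k).2 (mem_image.2 ⟨_, m, rfl⟩), rfl⟩
    · simp only [W, dif_pos p.2, t1 p]

end Vale.Agent.P283R.Tz
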