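import Vale.Agent.P283R.Wd.Hz66
import Vale.Agent.P283R.To.Lin

/-!
# P283R, block TY: the lemma of Farkas and the lemma of Shapley and Folkman
-/

set_option linter.all false

open Finset Module

namespace Vale.Agent.P283R.Tz.S41

variable {π ι R : Type} [Fintype π] [Fintype ι] [Fintype R] [DecidableEq π] {c : ℕ}

open Classical in
/-- the lemma of Shapley and Folkman -/
theorem shf (pt : ι → π) (n : ι → Fin c → ℝ) {ξ : ι → ℝ} (h0 : 0 ≤ ξ)
    (h1 : ∀ p, ∑ l with pt l = p, ξ l = 1) : ∃ (ζ : ι → ℝ) (D : Finset π), 0 ≤ ζ ∧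
      (∀ p, ∑ l with pt l = p, ζ l = 1) ∧ (∀ i, ∑ l, ζ l * n l i = ∑ l, ξ l * n l i) ∧
      D.card ≤ c ∧ ∀ p ∉ D, ∃ a, pt a = p ∧ ζ a = 1 := by
  obtain ⟨ζ, a, b, d⟩ := Wd.Z66.car (V := π ⊕ Fin c → ℝ)
    (fun l => Sum.elim (fun p => if pt l = p then 1 else 0) fun i => n l i) _ ξ le_rfl h0
  have b1 : ∀ p, ∑ l with pt l = p, ζ l = 1 := fun p => by
    have := congrFun b (.inl p)
    rw [← h1 p]
    simpa [sum_filter] using this
  have b2 : ∀ i, ∑ l, ζ l * n l i = ∑ l, ξ l * n l i := fun i => by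
    have := congrFun b (.inr i)
    simpa using this
  let S := fun q : π => univ.filter fun l => ζ l ≠ 0 ∧ pt l = q
  have s1 : ∀ p, ∑ l ∈ S p, ζ l = 1 := fun p => by
    rw [← b1 p]
    refine sum_subset (fun l hl => by simpa using (mem_filter.1 hl).2.2) fun l h h' => ?_
    by_contra e
    exact h' (mem_filter.2 ⟨mem_univ _, e, (mem_filter.1 h).2⟩)
  have s2 : ∀ p, 1 ≤ (S p).card := fun p => card_pos.2 (by
    by_contra e
    have := s1 p
    rw [not_nonempty_iff_eq_empty.1 e] at this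
    simp at this)
  rw [finrank_fintype_fun_eq_card, Fintype.card_sum, Fintype.card_fin,
    card_eq_sum_card_fiberwise (f := pt) (t := univ) fun _ _ => mem_univ _] at d
  simp only [filter_filter] at d
  have s3 : Fintype.card π + (univ.filter fun p => 2 ≤ (S p).card).card ≤ ∑ p, (S p).card := by
    rw [card_filter, ← card_univ, card_eq_sum_ones, ← sum_add_distrib]
    refine sum_le_sum fun p _ => ?_
    have := s2 p
    split_ifs <;> omega
  have d' : ∑ p, (S p).card ≤ Fintype.card π + c := d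
  refine ⟨ζ, univ.filter fun p => 2 ≤ (S p).card, a, b1, b2, by omega, fun p hp => ?_⟩
  have := s2 p
  obtain ⟨l, hl⟩ := card_eq_one.1 (show (S p).card = 1 by
    simp only [mem_filter, mem_univ, true_and] at hp
    omega)
  have e := s1 p
  rw [hl, sum_singleton] at e
  exact ⟨l, (mem_filter.1 (hl ▸ mem_singleton_self l : l ∈ S p)).2.2, e⟩

open Classical in
/-- the lemma of Farkas -/
theorem far (pt : ι → π) (W : ι → R → ℤ) (A B : ℤ)
    (H : ∀ w : R → ℕ, ∃ a : π → ι, (∀ p, pt (a p) = p) ∧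
      A * ∑ p, ∑ P, w P * W (a p) P ≤ B * ∑ P, (w P : ℤ)) :
    ∃ ξ : ι → ℝ, 0 ≤ ξ ∧ (∀ p, ∑ l with pt l = p, ξ l = 1) ∧
      ∀ P, A * ∑ l, ξ l * W l P ≤ B := by
  let M : ι ⊕ R ⊕ Unit → R ⊕ π → ℤ := Sum.elim
    (fun l => Sum.elim (fun P => A * W l P) fun p => if pt l = p then 1 else 0)
    (Sum.elim (fun P' => Sum.elim (fun P => if P' = P then 1 else 0) fun _ => 0)
      fun _ => Sum.elim (fun _ => -B) fun _ => -1)
  by_cases h : ∀ x : ι ⊕ R ⊕ Unit → ℚ, (∀ i, 0 ≤ x i) → (∀ k, ∑ i, x i * M i k = 0) →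
      ∀ i, i = .inr (.inr ()) → x i = 0
  · exfalso
    obtain ⟨u, hu⟩ := To.farkas_int' M _ h
    have u1 : ∀ P, 0 ≤ u (.inl P) := fun P => by
      simpa [M, Fintype.sum_sum_type] using (hu (.inr (.inl P))).1
    have u2 : ∀ l, 0 ≤ ∑ P, A * W l P * u (.inl P) + u (.inr (pt l)) := fun l => by
      simpa [M, Fintype.sum_sum_type] using (hu (.inl l)).1
    have u3 : 0 < -(B * ∑ P, u (.inl P)) - ∑ p, u (.inr p) := by
      have := (hu (.inr (.inr ()))).2 rfl
      simp only [M, Fintype.sum_sum_type, Sum.elim_inr, Sum.elim_inl, neg_mul, one_mul,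
        sum_neg_distrib, ← mul_sum] at this
      linarith
    obtain ⟨a, ha, k⟩ := H fun P => (u (.inl P)).toNat
    simp only [Int.toNat_of_nonneg (u1 _)] at k
    have := sum_nonneg fun p (_ : p ∈ univ) => u2 (a p)
    simp only [ha, sum_add_distrib] at this
    have e : ∑ p, ∑ P, A * W (a p) P * u (.inl P) = A * ∑ p, ∑ P, u (.inl P) * W (a p) P := by
      simp only [mul_sum]
      exact sum_congr rfl fun _ _ => sum_congr rfl fun _ _ => by ring
    linarith
  push Not at h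
  obtain ⟨x, x0, hx, _, rfl, t0⟩ := h
  have t : (0 : ℚ) < x (.inr (.inr ())) := (x0 _).lt_of_ne' t0
  have t' : (0 : ℝ) < x (.inr (.inr ())) := by exact_mod_cast t
  refine ⟨fun l => (x (.inl l) : ℝ) / x (.inr (.inr ())),
    fun l => div_nonneg (Rat.cast_nonneg.2 (x0 _)) t'.le, fun p => ?_, fun P => ?_⟩
  · have := hx (.inr p)
    simp only [M, Fintype.sum_sum_type, Sum.elim_inr, Sum.elim_inl, Fintype.sum_unique,
      Int.cast_ite, Int.cast_one, Int.cast_zero, mul_ite, mul_one, mul_zero, sum_const_zero,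
      Int.cast_neg, mul_neg, zero_add] at this
    rw [← sum_div, div_eq_one_iff_eq t'.ne', sum_filter]
    have e : ∑ l, (if pt l = p then x (.inl l) else 0) = x (.inr (.inr ())) := by
      have : (default : Unit) = () := rfl
      linarith
    rw [← e]
    push_cast
    exact sum_congr rfl fun l _ => by split_ifs <;> simp
  · have := hx (.inl P)
    simp only [M, Fintype.sum_sum_type, Sum.elim_inr, Sum.elim_inl, Fintype.sum_unique,
      Int.cast_ite, Int.cast_one, Int.cast_zero, mul_ite, mul_one, mul_zero, sum_ite_eq',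
      mem_univ, if_true, Int.cast_neg, mul_neg, Int.cast_mul] at this
    have e : ∑ l, x (.inl l) * (A * W l P) ≤ x (.inr (.inr ())) * B := by
      have := x0 (.inr (.inl P))
      linarith
    have e' : ∑ l, (x (.inl l) : ℝ) * (A * W l P) ≤ x (.inr (.inr ())) * B := by exact_mod_cast e
    rw [mul_sum, ← mul_le_mul_iff_right₀ t', mul_sum]
    refine le_of_eq_of_le (sum_congr rfl fun l _ => ?_) e'
    field_simp

/-- **outside of `c` pages there is a selection with the excess at most one** -/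
theorem sel (pt : ι → π) (n : ι → Fin c → ℤ) (r : R → Fin c → ℤ) (o : π → R → ℤ)
    (ho : ∀ l P, o (pt l) P ≤ n l ⬝ᵥ r P)
    (H : ∀ w : R → ℕ, ∃ a : π → ι, (∀ p, pt (a p) = p) ∧
      2 * ∑ p, ∑ P, w P * (n (a p) ⬝ᵥ r P - o p P) ≤ 3 * ∑ P, (w P : ℤ)) :
    ∃ (J : Finset π) (a : π → ι), J.card ≤ c ∧ (∀ p, pt (a p) = p) ∧
      ∀ P, ∑ p with p ∉ J, (n (a p) ⬝ᵥ r P - o p P) ≤ 1 := by
  classical
  obtain ⟨ξ, h0, h1, h2⟩ := far pt (fun l P => n l ⬝ᵥ r P - o (pt l) P) 2 3 fun w => by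
    obtain ⟨a, ha, k⟩ := H w
    exact ⟨a, ha, by simpa only [ha] using k⟩
  obtain ⟨ζ, J, z0, z1, z2, hJ, z3⟩ := shf pt (fun l i => n l i) h0 h1
  obtain ⟨a₀, ha₀, -⟩ := H 0
  have ch : ∀ p, ∃ a, pt a = p ∧ (p ∉ J → ζ a = 1) := fun p => by
    by_cases t : p ∈ J
    · exact ⟨a₀ p, ha₀ p, fun z => (z t).elim⟩
    · exact (z3 p t).imp fun a k => ⟨k.1, fun _ => k.2⟩
  choose a ha hz using ch
  refine ⟨J, a, hJ, ha, fun P => ?_⟩
  have key : ∀ η : ι → ℝ, (∀ p, ∑ l with pt l = p, η l = 1) →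
      ∑ l, η l * ((n l ⬝ᵥ r P - o (pt l) P : ℤ) : ℝ) =
        ∑ i, (∑ l, η l * n l i) * r P i - ∑ p, (o p P : ℝ) := fun η hη => by
    have e1 : ∑ l, η l * (o (pt l) P : ℝ) = ∑ p, (o p P : ℝ) := by
      rw [← sum_fiberwise (s := univ) (g := pt)]
      refine sum_congr rfl fun p _ => ?_
      rw [← one_mul (o p P : ℝ), ← hη p, sum_mul]
      exact sum_congr rfl fun l hl => by rw [(mem_filter.1 hl).2]
    simp only [dotProduct, Int.cast_sub, Int.cast_sum, Int.cast_mul, mul_sub, sum_sub_distrib, e1,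
      mul_sum, sum_mul, mul_assoc]
    rw [sum_comm]
  have k1 := h2 P
  rw [key ξ h1] at k1
  simp only [← z2] at k1
  rw [← key ζ z1] at k1
  have k2 : ((∑ p with p ∉ J, (n (a p) ⬝ᵥ r P - o p P) : ℤ) : ℝ) ≤
      ∑ l, ζ l * ((n l ⬝ᵥ r P - o (pt l) P : ℤ) : ℝ) := by
    have inj : Function.Injective a := fun p p' e => by rw [← ha p, e, ha]
    rw [Int.cast_sum, show ∑ p with p ∉ J, ((n (a p) ⬝ᵥ r P - o p P : ℤ) : ℝ) =
      ∑ l ∈ (univ.filter (· ∉ J)).image a, ζ l * ((n l ⬝ᵥ r P - o (pt l) P : ℤ) : ℝ) by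
        rw [sum_image fun _ _ _ _ e => inj e]
        exact sum_congr rfl fun p hp => by rw [hz p (mem_filter.1 hp).2, ha, one_mul]]
    exact sum_le_sum_of_subset_of_nonneg (subset_univ _) fun l _ _ =>
      mul_nonneg (z0 l) (by exact_mod_cast sub_nonneg.2 (ho l P))
  have k3 : ((∑ p with p ∉ J, (n (a p) ⬝ᵥ r P - o p P) : ℤ) : ℝ) < 2 := by
    push_cast at k1 k2 ⊢
    linarith
  have : (∑ p with p ∉ J, (n (a p) ⬝ᵥ r P - o p P) : ℤ) < 2 := by exact_mod_cast k3
  omega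

end Vale.Agent.P283R.Tz.S41
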