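import Vale.Agent.P283R.Tz.St
import Vale.Agent.P283R.Tz.Sel41

/-!
# P283R, block TY: the row SF
-/

namespace Vale.Agent.P283R.Tz

/-- **SF** -/
theorem sf77 : SF := by
  intro c π α β H S A x v o ho h
  classical
  obtain ⟨E, -, hE, a, ha, k⟩ := S41.sel' H A x S v o ho h
  refine ⟨a, E, hE, ha, fun r hr H' le n => le_trans ?_ (k r hr)⟩
  exact Finset.sum_le_sum_of_subset_of_nonneg
    (fun p hp => by simpa using ⟨le hp, n p hp⟩)
    fun p hp _ => sub_nonneg.2 (ho p (by simpa using (Finset.mem_sdiff.1 (by convert hp)).1) _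
      (ha p (by simpa using (Finset.mem_sdiff.1 (by convert hp)).1)) r hr)

end Vale.Agent.P283R.Tz
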