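import Vale.Agent.P283R.Tl.E42

/-!
# P283R, block TY: the theorem for few rays as a black box
-/

open Set

noncomputable section

namespace Vale.Agent.P283R.Tz

open Vale.Agent.P287D Vale.Agent.P283M
open Pq (Tv cz)
open Wc (Rep Sec ForA)
open Tl (Mv)

/-- there are only finitely many invariant monomial primes -/
theorem fin24 {K : Type} [Field K] [Algebra ℂ K] {c ρ : ℕ} {s : Fin c → K} {y : Fin ρ → K}
    {T : Set (Pl K)} (fm : Tl.Fm s y (· ∈ T) id) : {P | P ∈ T ∧ Mv s P ∧ ¬ Tv s y P}.Finite := by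
  refine ((finite_iUnion fun i => fm.fin (s i)).union (finite_iUnion fun j => fm.fin (y j))).subset
    fun P ⟨a, b, e⟩ => by_contra fun n => e ?_
  simp only [mem_union, mem_iUnion, mem_ofPred_eq, not_or, not_exists, not_and, not_not, id] at n
  exact ((Pq.fac c ρ K s y fm.rat).2.2.2.2.2.2.2.2.1 P).2
    ⟨(Tb.dic80 c ρ K s y fm.rat).2.2.1 P b fun i => n.1 i a, fun j => n.2 j a⟩

/-- the monomial primes outside of `E` are dropped -/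
theorem sub24 (l d q : ℕ) (ε : ℝ) (hq : 0 < q) (hε : 0 < ε) : ∃ m : ℕ, 2 ≤ m ∧
    ForA fun K _ _ _ _ s y T => ∀ g κ (Q : Pl K) ξ, Tl.Pk d q ε s y T g κ → Rep s y T Q ξ →
      ∀ E : Finset (Pl K), E.card ≤ l → (∀ P ∈ T, Mv s P → ξ P ≠ 0 → P ∈ E) →
        Sec q m (cz s y) (T \ {P | Mv s P ∧ ¬ Tv s y P ∧ P ∉ E}) g κ Q := by
  classical
  obtain ⟨m, m2, H⟩ := Tl.one l d q ε hq hε
  refine ⟨m, m2, fun K _ _ c ρ s y T g κ Q ξ pk rep E cE hE => ?_⟩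
  have e : T \ {P | Mv s P ∧ ¬ Tv s y P ∧ P ∉ E} =
      T \ {P | (P ∈ T ∧ Mv s P ∧ ¬ Tv s y P) ∧ P ∉ E} :=
    Set.ext fun P => and_congr_right fun a => not_congr
      ⟨fun h => ⟨⟨a, h.1, h.2.1⟩, h.2.2⟩, fun h => ⟨h.1.2.1, h.1.2.2, h.2⟩⟩
  have pk1 := Tl.drp47 K c ρ s y T d q ε g κ _ pk
    ((fin24 pk.fm).subset (t := {P | (P ∈ T ∧ Mv s P ∧ ¬ Tv s y P) ∧ P ∉ E}) fun _ h => h.1)
    fun _ h => h.1.2.2
  rw [← e] at pk1
  have r1 : Rep s y (T \ {P | Mv s P ∧ ¬ Tv s y P ∧ P ∉ E}) Q ξ := ⟨rep.nn, fun P z =>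
    ⟨⟨(rep.sup P z).1, fun h => h.2.2 (hE P (rep.sup P z).1 h.1 z)⟩, (rep.sup P z).2⟩, rep.eq⟩
  refine H K c ρ s y _ g κ Q pk1
    (fun a a0 h => (Tl.reg21 K c ρ s y _ Q ξ a pk1.fm r1 a0 h).1)
    ⟨E.filter (· ∈ Tl.Aq s _ Q), (E.card_filter_le _).trans cE,
      fun P h => (Finset.mem_filter.1 h).2, fun μ h R r => h R (Finset.mem_filter.2 ⟨?_, r⟩)⟩
  obtain ⟨a, b, ⟨i, z⟩, -⟩ := r
  exact by_contra fun n => a.2 ⟨b, fun t =>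
    z (Pq.I80.fr_l s y i ▸ Pq.I80.tv_ord pk.fm.rat.ind t _), n⟩

end Vale.Agent.P283R.Tz
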