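import Vale.Agent.P283R.Tz.St
import Vale.Agent.P283R.Tz.Car25

/-!
# P283R, block TY: the row ZM
-/

noncomputable section

namespace Vale.Agent.P283R.Tz

theorem zm59 : ZM := by
  intro K _ _ c ρ s y T Q ξ p fm rep _
  refine ⟨?_, fun h => ?_⟩
  · obtain ⟨a, b, e⟩ := (Tb.dic80 c ρ K s y fm.rat).1 Q p.l (Pq.F60.irr p).ne_zero
    exact ⟨a, b, sub_nonpos.2 e⟩
  · have hp : ∀ P, ξ P ≠ 0 → ¬ Tb.Ax s P p := fun P z e => z (h P e.1)
    obtain ⟨a, b, -, e⟩ := C25.emp fm rep p hp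
    exact ⟨fun a k => sub_eq_zero.2 (C25.cost fm rep p hp a fun P z m =>
      (sub_eq_zero.1 (k P z m)).symm).symm, a, b, fun P z _ => sub_eq_zero.2 (e P z).symm⟩

end Vale.Agent.P283R.Tz
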